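import Mathlib.Analysis.AbsoluteValue.Equivalence
import Mathlib.Analysis.Normed.Field.Instances
import Mathlib.GroupTheory.IsSubnormal
import Mathlib.GroupTheory.ResiduallyFinite
import Mathlib.GroupTheory.Solvable
import Mathlib.LinearAlgebra.Matrix.GeneralLinearGroup.Defs
import Mathlib.NumberTheory.FunctionField
import Mathlib.NumberTheory.NumberField.Basic
import Mathlib.RingTheory.Nullstellensatz
import Mathlib.Topology.Instances.Matrix

/-!
The Margulis-Platonov conjecture. Only definitions.
-/

open Matrix MvPolynomial

namespace Vale.Agent.N011.St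

/-- `k` is a number field or a finite extension of `F(t)`, `F` a finite field. -/
def Glob (k : Type) [Field k] : Prop :=
  NumberField k ∨
    ∃ (F : Type) (_ : Field F) (_ : Finite F) (_ : Algebra (RatFunc F) k), FunctionField F k

/-- The entries of a matrix. -/
def en {n : ℕ} {A : Type} [CommRing A] (g : GL (Fin n) A) (e : Fin n × Fin n) : A := g.1 e.1 e.2

section

variable (k : Type) [Field k] {Ω : Type} [Field Ω] [Algebra k Ω] {n : ℕ}
  (G : Subgroup (GL (Fin n) Ω))

/-- The ideal of the polynomials over `k` in the entries which vanish on `G`. -/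
noncomputable def van : Ideal (MvPolynomial (Fin n × Fin n) k) :=
  vanishingIdeal k (en '' (G : Set (GL (Fin n) Ω)))

/-- `g` is a point of `G` over the `k`-algebra `A`: a zero of the equations of `G` over `k`. -/
def Pt {A : Type} [CommRing A] [Algebra k A] (g : GL (Fin n) A) : Prop :=
  ∀ p ∈ van k G, aeval (en g) p = 0

/-- `G` is Zariski closed and irreducible: a connected algebraic group. -/
def Conn : Prop := (∀ g : GL (Fin n) Ω, Pt Ω G g → g ∈ G) ∧ (van Ω G).IsPrime

/-- `G` is a connected algebraic group which is defined over `k`, is not commutative, and has no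
proper nontrivial closed connected normal subgroup. -/
structure AbsSimple : Prop where
  conn : Conn G
  defined : van Ω G = (van k G).map (MvPolynomial.map (algebraMap k Ω))
  noncomm : ∃ g ∈ G, ∃ h ∈ G, g * h ≠ h * g
  simple : ∀ N ≤ G, Conn N → (∀ g ∈ G, ∀ x ∈ N, g * x * g⁻¹ ∈ N) → N = ⊥ ∨ N = G

/-- `G` is simply connected: every central isogeny `π` from a connected group `H` onto `G` has a
polynomial inverse. Here `π` is given by polynomials `P`, onto, with a finite kernel, and its
kernel on the `A`-points is central for every commutative algebra `A`. -/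
def SConn : Prop :=
  ∀ (m : ℕ) (H : Subgroup (GL (Fin m) Ω)) (π : H →* G)
    (P : Fin n × Fin n → MvPolynomial (Fin m × Fin m) Ω), Conn H →
    (∀ h e, en (π h).1 e = aeval (en h.1) (P e)) → Function.Surjective π → Finite π.ker →
    (∀ (A : Type) [CommRing A] [Algebra Ω A] (g h : GL (Fin m) A), Pt Ω H g → Pt Ω H h →
      (∀ e, aeval (en g) (P e) = en 1 e) → g * h = h * g) →
    ∃ Q : Fin m × Fin m → MvPolynomial (Fin n × Fin n) Ω,
      ∀ h e, en h.1 e = aeval (en (π h).1) (Q e)

/-- The group `G(L)`. -/
def Pts (L : Type) [Field L] [Algebra k L] : Subgroup (GL (Fin n) L) :=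
  Subgroup.closure {g | Pt k G g}

/-- Rank zero: `H` contains no nontrivial split torus. -/
def Ani {L : Type} [Field L] (H : Subgroup (GL (Fin n) L)) : Prop :=
  ∀ (g : GL (Fin n) L) (y : Fin n → ℤ),
    (∀ t : Lˣ, ∃ h ∈ H, h.1 * g.1 = g.1 * diagonal fun i => (t ^ y i).1) → y = 0

/-- The set `A(G)`. A place `v` is a class of equivalent nontrivial absolute values, and `k_v` is
the completion for a representative. -/
def AG : Type :=
  {v : Quot (AbsoluteValue.IsEquiv : AbsoluteValue k ℝ → _ → Prop) //
    v.out.IsNontrivial ∧ IsNonarchimedean v.out ∧ Ani (Pts k G v.out.Completion)}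

/-- Properties of a homomorphism from a group to a group with a topology. -/
abbrev Pp : Type 1 :=
  ∀ (Γ H : Type) (_ : Group Γ) (_ : Group H) (_ : TopologicalSpace H), (Γ →* H) → Prop

/-- There is a homomorphism from `Γ` to the product of the groups `H i`, with the product topology,
whose components are described by the relations `R i` and which has the property `P`. -/
def Diag {Γ ι : Type} {H : ι → Type} [s : Group Γ] [∀ i, Group (H i)]
    [∀ i, TopologicalSpace (H i)] (R : ∀ i, Γ → H i → Prop) (P : Pp) : Prop :=
  ∃ δ : Γ →* ∀ i, H i,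
    (∀ g i, R i g (δ g i)) ∧ P Γ (∀ i, H i) s Pi.group Pi.topologicalSpace δ

/-- `h` in `G(L)` is the matrix `g` in `G(k)`. -/
def Im (L : Type) [Field L] [Algebra k L] (g : Pts k G k) (h : Pts k G L) : Prop :=
  h.1.1 = g.1.1.map (algebraMap k L)

/-- The diagonal homomorphism from `G(k)` to the product of the groups of points over the
completions of `k` for the absolute values `w i` exists and has the property `P`. -/
def At {ι : Type} (w : ι → AbsoluteValue k ℝ) (P : Pp) : Prop :=
  Diag (fun i => Im k G (w i).Completion) P

/-- The diagonal homomorphism `δ_A` from `G(k)` to the product `H_A` of the groups `G(k_v)`, `v` in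
`A(G)`, exists and has the property `P`. -/
def DA (P : Pp) : Prop := At k G (fun v : AG k G => v.1.out) P

end

section

variable {Γ H : Type} [Group Γ] [Group H] [TopologicalSpace H] (δ : Γ →* H)

/-- The noncentral normal subgroups are preimages of open normal subgroups. -/
def MP : Prop :=
  ∀ N : Subgroup Γ, N.Normal → ¬N ≤ Subgroup.center Γ →
    ∃ W : Subgroup H, IsOpen (W : Set H) ∧ W.Normal ∧ N = W.comap δ

/-- `H` is the profinite completion of `Γ`. -/
def Prof : Prop :=
  CompactSpace H ∧ T2Space H ∧ TotallyDisconnectedSpace H ∧ DenseRange δ ∧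
    Set.BijOn (Subgroup.comap δ) {W | IsOpen (W : Set H)} {N | N.FiniteIndex}

/-- The commutator subgroup of `Γ` is the preimage of the closure of that of `H`. -/
def Com : Prop := (commutator Γ : Set Γ) = δ ⁻¹' closure (commutator H : Set H)

variable (Γ)

/-- A subgroup which is subnormal, or normalised by a subgroup of finite index, is central or of
finite index. -/
def Her : Prop :=
  ∀ N : Subgroup Γ, (N.IsSubnormal ∨
    ∃ M : Subgroup Γ, M.FiniteIndex ∧ ∀ m ∈ M, ∀ x ∈ N, m * x * m⁻¹ ∈ N) →
    N ≤ Subgroup.center Γ ∨ N.FiniteIndex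

/-- The finite quotients are solvable. -/
def Sol : Prop :=
  ∀ (Q : Type) [Group Q] [Finite Q] (f : Γ →* Q), Function.Surjective f → Group.IsSolvable Q

/-- The condition `p` is equivalent to the simplicity modulo the centre, to perfectness, to the
absence of proper subgroups of finite index, and to the failure of residual finiteness. -/
def Crit (p : Prop) : Prop :=
  List.TFAE [p, IsSimpleGroup (Γ ⧸ Subgroup.center Γ), commutator Γ = ⊤,
    ∀ N : Subgroup Γ, N.FiniteIndex → N = ⊤, ¬Group.ResiduallyFinite Γ]

end

end Vale.Agent.N011.St
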