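import Vale.Agent.N011.Zar
import Vale.Agent.N011.Defs
import Mathlib.Topology.Algebra.ClopenNhdofOne

/-!
Consequences of the description of the noncentral normal subgroups.
-/

namespace Vale.Agent.N011

open Subgroup St

variable {n : ℕ} {k R Γ H : Type} [Field k] [Field R] [Algebra k R] [Group Γ]
  {𝔾 : Subgroup (GL (Fin n) R)} {ι : Γ →* GL (Fin n) R}
  [Group H] [TopologicalSpace H] [IsTopologicalGroup H] {δ : Γ →* H}

theorem fi_comap [CompactSpace H] {W : Subgroup H} (hW : IsOpen (W : Set H)) :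
    (W.comap δ).FiniteIndex := by
  have := W.quotient_finite_of_isOpen hW
  have := W.finiteIndex_of_finite_quotient
  exact ⟨by rw [index_comap]; exact FiniteIndex.index_ne_zero⟩

/-- An open subgroup is the closure of its intersection with a dense subgroup. -/
theorem le_clo (dn : DenseRange δ) {W : Subgroup H} (hW : IsOpen (W : Set H)) :
    W ≤ ((W.comap δ).map δ).topologicalClosure := fun _ hx =>
  closure_mono (by rintro _ ⟨h, g, rfl⟩; exact ⟨g, h, rfl⟩) (dn.open_subset_closure_inter hW hx)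

theorem her [CompactSpace H] (h : Zd ι k 𝔾) (mp : MP δ) : Her Γ := by
  have a : ∀ N M : Subgroup Γ, M.FiniteIndex → Nm M N → N ≤ center Γ ∨ N.FiniteIndex :=
    fun N M _ hM => or_iff_not_imp_left.2 fun hc => by
      obtain ⟨W, w1, -, w3⟩ := mp _ N.normalCore_normal (h.core hM hc)
      have : N.normalCore.FiniteIndex := w3 ▸ fi_comap w1
      exact finiteIndex_of_le N.normalCore_le
  rintro N (hN | ⟨M, h1, h2⟩)
  · induction hN with
    | top => exact .inr inferInstance
    | step N M le _ nm ih =>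
      rcases ih with ih | ih
      · exact .inl (le.trans ih)
      · exact a N M ih fun m hm x hx => nm.conj_mem ⟨x, le hx⟩ hx ⟨m, hm⟩
  · exact a N M h1 h2

theorem prof [CompactSpace H] [T2Space H] [TotallyDisconnectedSpace H] (h : Zd ι k 𝔾) (mp : MP δ)
    (dn : DenseRange δ) : Prof δ := by
  refine ⟨inferInstance, inferInstance, inferInstance, dn, fun W hW => fi_comap hW,
    fun W hW V hV e => ?_, fun N (hN : N.FiniteIndex) => ?_⟩
  · have a : ∀ W V : Subgroup H, IsOpen (W : Set H) → IsOpen (V : Set H) →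
        W.comap δ = V.comap δ → W ≤ V := fun W V hW hV e => (le_clo dn hW).trans
      (topologicalClosure_minimal _ (e ▸ map_comap_le δ V) (V.isClosed_of_isOpen hV))
    exact le_antisymm (a W V hW hV e) (a V W hV hW e.symm)
  · obtain ⟨W, w1, w2, w3⟩ := mp _ N.normalCore_normal (h.nc h.dn_fi)
    refine ⟨W ⊔ N.map δ, isOpen_mono le_sup_left w1, le_antisymm (fun g hg => ?_)
      (le_comap_map δ N |>.trans (comap_mono le_sup_right))⟩
    obtain ⟨y, hy, _, ⟨z, hz, rfl⟩, e⟩ := mem_sup_of_normal_left.1 hg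
    have : g * z⁻¹ ∈ N := N.normalCore_le (w3.ge (by
      rw [mem_comap, map_mul, map_inv, ← e, mul_inv_cancel_right]; exact hy))
    simpa using N.mul_mem this hz

/-- The commutator subgroup. -/
theorem comm_eq (h : Zd ι k 𝔾) (mp : MP δ) (dn : DenseRange δ) :
    commutator Γ = (commutator H).topologicalClosure.comap δ := by
  obtain ⟨W, w1, -, w3⟩ := mp _ inferInstance h.nc_comm
  refine le_antisymm (map_le_iff_le_comap.1 (le_trans ?_ (le_topologicalClosure _))) ?_
  · rw [map_commutator_eq]
    exact commutator_mono le_top le_top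
  · rw [w3]
    refine comap_mono (topologicalClosure_minimal _ (commutator_le.2 fun x _ y _ => ?_)
      (W.isClosed_of_isOpen w1))
    refine dn.induction_on₂ (p := fun x y => x * y * x⁻¹ * y⁻¹ ∈ W)
      ((W.isClosed_of_isOpen w1).preimage (f := fun p : H × H => p.1 * p.2 * p.1⁻¹ * p.2⁻¹)
        (by fun_prop)) (fun a b => ?_) x y
    rw [← map_inv, ← map_inv, ← map_mul, ← map_mul, ← map_mul]
    exact w3.le (commutator_mem_commutator (mem_top a) (mem_top b))

/-- A proper normal subgroup of finite index in a group which embeds in a profinite group. -/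
theorem ex_prop [CompactSpace H] [T2Space H] [TotallyDisconnectedSpace H] (h : Zd ι k 𝔾)
    (hδ : Function.Injective δ) :
    ∃ N : Subgroup Γ, N.Normal ∧ N.FiniteIndex ∧ N ⊔ center Γ ≠ ⊤ := by
  obtain ⟨y, -, hy⟩ := SetLike.not_le_iff_exists.1 (h.nc h.dn)
  obtain ⟨W, hW⟩ := ProfiniteGrp.exist_openNormalSubgroup_sub_open_nhds_of_one
    (h.fin_cen.image fun z => δ (y * z⁻¹)).isClosed.isOpen_compl (by
      rintro ⟨z, hz, e⟩
      exact hy (mul_inv_eq_one.1 (hδ (e.trans δ.map_one.symm)) ▸ hz))
  refine ⟨W.1.1.comap δ, W.2.comap δ, fi_comap W.1.2, fun e => ?_⟩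
  have := W.2.comap δ
  obtain ⟨a, ha, z, hz, e'⟩ := mem_sup_of_normal_left.1 (e.ge (mem_top y))
  exact hW ha ⟨z, hz, congrArg δ (mul_inv_eq_of_eq_mul e'.symm)⟩

theorem crit [CompactSpace H] [T2Space H] [TotallyDisconnectedSpace H] (h : Zd ι k 𝔾) (mp : MP δ)
    (sol : Sol Γ) {p : Prop} (hp : p → Subsingleton H) (hn : ¬p → Function.Injective δ) :
    Crit Γ p := by
  have a : p → ∀ N : Subgroup Γ, N.Normal → ¬N ≤ center Γ → N = ⊤ := fun e N h1 h2 => by
    obtain ⟨W, -, -, rfl⟩ := mp N h1 h2
    have := hp e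
    rw [Subsingleton.elim W ⊤, comap_top]
  unfold Crit
  tfae_have 1 → 2 := fun e => by
    have : Nontrivial (Γ ⧸ center Γ) :=
      QuotientGroup.nontrivial_iff.2 fun e => h.nc h.dn e.ge
    refine ⟨fun N hN => or_iff_not_imp_left.2 fun h0 => ?_⟩
    refine comap_injective (QuotientGroup.mk'_surjective _) (a e _ (hN.comap _) fun l => h0 ?_)
    rw [← map_comap_eq_self_of_surjective (QuotientGroup.mk'_surjective _) N,
      Subgroup.map_eq_bot_iff, QuotientGroup.ker_mk']
    exact l
  tfae_have 2 → 1 := fun e => by_contra fun hp => by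
    obtain ⟨N, n1, n2, n3⟩ := ex_prop h (hn hp)
    rcases (n1.map _ (QuotientGroup.mk'_surjective (center Γ))).eq_bot_or_eq_top with b | b
    · rw [Subgroup.map_eq_bot_iff, QuotientGroup.ker_mk'] at b
      exact h.nc h.dn_fi b
    · rw [← QuotientGroup.ker_mk' (center Γ), ← comap_map_eq, b, comap_top] at n3
      exact n3 rfl
  tfae_have 1 → 3 := fun e => a e _ inferInstance h.nc_comm
  tfae_have 3 → 4 := fun e N _ => by
    have := sol _ _ (QuotientGroup.mk'_surjective N.normalCore)
    refine eq_top_iff.2 (le_trans (le_of_eq (by_contra fun l => ?_)) N.normalCore_le)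
    have := QuotientGroup.nontrivial_iff.2 (Ne.symm l)
    refine (Group.IsSolvable.commutator_lt_top_of_nontrivial (Γ ⧸ N.normalCore)).ne ?_
    rw [← derivedSeries_one, ← map_derivedSeries_eq (QuotientGroup.mk'_surjective _),
      derivedSeries_one, e, map_top_of_surjective _ (QuotientGroup.mk'_surjective _)]
  tfae_have 4 → 1 := fun e => by_contra fun hp => by
    obtain ⟨N, -, n2, n3⟩ := ex_prop h (hn hp)
    exact n3 (by rw [e N n2, top_sup_eq])
  tfae_have 4 → 5 := fun e r => h.nc h.dn fun g _ => by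
    rw [Group.residuallyFinite_iff_forall_finiteIndex.1 r g fun N hN => (e N hN).ge trivial]
    exact one_mem _
  tfae_have 5 → 1 := fun e => by_contra fun hp =>
    e (Group.residuallyFinite_iff_exists_finiteIndex.2 fun g hg => by
      have := T2Space.t1Space (X := H)
      obtain ⟨W, hW⟩ := ProfiniteGrp.exist_openNormalSubgroup_sub_open_nhds_of_one
        (isOpen_compl_singleton (x := δ g)) fun l => hg (hn hp (l.symm.trans δ.map_one.symm))
      exact ⟨W.1.1.comap δ, fi_comap W.1.2, fun l => hW l rfl⟩)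
  tfae_finish

omit [IsTopologicalGroup H] in
/-- Transport along an isomorphism. -/
theorem transfer [CompactSpace H] {H' : Type} [Group H'] [TopologicalSpace H'] [T2Space H']
    (Ψ : H →* H') (c : Continuous Ψ) (b : Function.Bijective Ψ) (mp : MP δ) (dn : DenseRange δ) :
    CompactSpace H' ∧ MP (Ψ.comp δ) ∧ DenseRange (Ψ.comp δ) := by
  refine ⟨b.2.compactSpace c, fun N h1 h2 => ?_, b.2.denseRange.comp dn c⟩
  obtain ⟨W, w1, w2, rfl⟩ := mp N h1 h2
  exact ⟨W.map Ψ, (c.homeoOfEquivCompactToT2 (f := Equiv.ofBijective Ψ b)).isOpenMap _ w1,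
    w2.map Ψ b.2, by rw [← comap_comap, comap_map_eq_self_of_injective b.1]⟩

end Vale.Agent.N011
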