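import Vale.Agent.N011.Main

/-!
Comparison of the definitions: the identity component, and the places.
-/

namespace Vale.Agent.N011

open Set Matrix

section

open Vale.Agent.P092AG Vale.Agent.P092A2

variable {n : ℕ} {R : Type} [Field R]

theorem prime_lr {S : Set (GL (Fin n) R)} (h : (van S).IsPrime) (a b : GL (Fin n) R) :
    (van ((fun x => a * x * b) '' S)).IsPrime := by
  refine ⟨fun e => h.ne_top ((Ideal.eq_top_iff_one _).2 fun g hg => ?_), fun {p q} hpq => ?_⟩
  · simpa using (Ideal.eq_top_iff_one _).1 e _ ⟨g, hg, rfl⟩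
  · obtain ⟨p', hp⟩ := (PF.of p).lr a b
    obtain ⟨q', hq⟩ := (PF.of q).lr a b
    refine (h.mem_or_mem (x := p') (y := q') fun g hg => ?_).imp (fun e => ?_) fun e => ?_
    · rw [map_mul, ← hp, ← hq, ← map_mul, ← Units.val_mul, ← Units.val_mul]
      exact hpq _ ⟨g, hg, rfl⟩
    · rintro _ ⟨g, hg, rfl⟩
      rw [Units.val_mul, Units.val_mul]
      exact (hp g).trans (e g hg)
    · rintro _ ⟨g, hg, rfl⟩
      rw [Units.val_mul, Units.val_mul]
      exact (hq g).trans (e g hg)

/-- **The identity component of a closed subgroup.** -/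
theorem idc {N : Subgroup (GL (Fin n) R)} (hN : ZCl (N : Set (GL (Fin n) R))) :
    ∃ X ≤ N, ZCl (X : Set (GL (Fin n) R)) ∧ (van (X : Set (GL (Fin n) R))).IsPrime ∧
      (X = ⊥ → (N : Set (GL (Fin n) R)).Finite) ∧
      ∀ g, (∀ x ∈ N, g * x * g⁻¹ ∈ N) → ∀ x ∈ X, g * x * g⁻¹ ∈ X := by
  let I := van (N : Set (GL (Fin n) R))
  let X (q : Ideal (Pl n R)) : Set (GL (Fin n) R) := {g | ∀ p ∈ q, ev (g : Mt n R) p = 0}
  have fin := I.finite_minimalPrimes_of_isNoetherianRing
  have x0 : ∀ q ∈ I.minimalPrimes, X q ⊆ N := fun q hq g hg => hN g fun p hp => hg p (hq.1.2 hp)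
  have x1 : ∀ q, q ≤ van (X q) := fun q p hp g hg => hg p hp
  have x2 : ∀ q, ZCl (X q) := fun q g hg p hp => hg p (x1 q hp)
  have x3 : ∀ g ∈ N, ∃ q ∈ I.minimalPrimes, g ∈ X q := fun g hg =>
    haveI := RingHom.ker_isPrime (ev (g : Mt n R))
    Ideal.exists_minimalPrimes_le (J := RingHom.ker (ev (g : Mt n R))) fun p hp => hp g hg
  have x4 : ∀ q ∈ I.minimalPrimes, van (X q) = q := fun q hq => by
    have := hq.1.1
    obtain ⟨r, hr, e⟩ := (Ideal.IsPrime.inf_le' (s := fin.toFinset) (f := fun r => van (X r))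
      this).1 (le_trans (b := I) (fun p hp g hg => by
        obtain ⟨r, hr, a⟩ := x3 g hg
        exact Finset.inf_le (f := fun r => van (X r)) (fin.mem_toFinset.2 hr) hp g a) hq.1.2)
    have a := (x1 r).trans e
    obtain rfl : r = q := le_antisymm a (hq.2 (fin.mem_toFinset.1 hr).1 a)
    exact le_antisymm e (x1 r)
  have x5 : ∀ S ⊆ (N : Set (GL (Fin n) R)), (van S).IsPrime → ∃ q ∈ I.minimalPrimes, S ⊆ X q :=
    fun S hS h => (irred h fin fun g hg => x3 g (hS hg)).imp fun q a =>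
      ⟨a.1, a.2.trans (zcl_subset (x2 q) subset_rfl)⟩
  have x6 : ∀ q ∈ I.minimalPrimes, ∀ a ∈ N, ∃ r ∈ I.minimalPrimes, ∀ x ∈ X q, a * x ∈ X r :=
    fun q hq a ha => by
      obtain ⟨r, hr, e⟩ := x5 _ (by
        rintro _ ⟨x, hx, rfl⟩
        exact N.mul_mem (N.mul_mem ha (x0 q hq hx)) N.one_mem)
        (prime_lr ((x4 q hq).symm ▸ hq.1.1) a 1)
      exact ⟨r, hr, fun x hx => mul_one (a * x) ▸ e ⟨x, hx, rfl⟩⟩
  obtain ⟨p, hp, p1⟩ := x3 1 N.one_mem
  let C (q : Ideal (Pl n R)) : Set (GL (Fin n) R) := {a | ∀ x ∈ X p, a * x ∈ X q}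
  have c1 : ∀ q, ZCl (C q) := fun q a ha x hx => zcl_subset (x2 q) subset_rfl
    (map_zcl (S := C q) (PF.mulE PF.entry (pf_c x)) (fun s hs => ⟨s * x, subset_zcl (hs x hx), rfl⟩) ha rfl)
  have c2 : ∀ q ∈ I.minimalPrimes, ∀ a ∈ N, a ∈ C q → ∀ b ∈ C q, ∀ x ∈ X p, a⁻¹ * (b * x) ∈ X p :=
    fun q hq a ha h b hb x hx => by
      obtain ⟨r, hr, e⟩ := x6 q hq _ (N.inv_mem ha)
      have l : r ≤ p := (x1 r).trans ((van_anti fun y hy => by
        simpa using e _ (h y hy)).trans (x4 p hp).le)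
      exact le_antisymm l (hp.2 hr.1 l) ▸ e _ (hb x hx)
  have c3 : ∀ S ⊆ (N : Set (GL (Fin n) R)), (van S).IsPrime → 1 ∈ S → ∀ y ∈ S, ∀ x ∈ X p,
      y * x ∈ X p ∧ y⁻¹ * x ∈ X p := fun S hS h h1 y hy x hx => by
    obtain ⟨q, hq, e⟩ := irred h fin (T := C) fun g hg => x6 p hp g (hS hg)
    replace e := e.trans (zcl_subset (c1 q) subset_rfl)
    exact ⟨by simpa using c2 q hq 1 N.one_mem (e h1) y (e hy) x hx,
      by simpa using c2 q hq y (hS hy) (e hy) 1 (e h1) x hx⟩
  have p2 : (van (X p)).IsPrime := (x4 p hp).symm ▸ hp.1.1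
  have p3 := c3 _ (x0 p hp) p2 p1
  refine ⟨⟨⟨⟨X p, fun {a b} ha hb => (p3 a ha b hb).1⟩, p1⟩, fun {a} ha => by
    simpa using (p3 a ha 1 p1).2⟩, x0 p hp, x2 p, p2, fun e => ?_, fun g hg x hx => ?_⟩
  · refine (fin.biUnion (t := fun q => N ∩ C q) fun q hq => Subsingleton.finite
      fun a ha b hb => ?_).subset fun a ha => ?_
    · have : a⁻¹ * (b * 1) = 1 := e.le (c2 q hq a ha.1 ha.2 b hb.2 1 p1)
      rwa [mul_one, inv_mul_eq_one] at this
    · obtain ⟨q, hq, l⟩ := x6 p hp a ha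
      exact mem_biUnion hq ⟨ha, l⟩
  · simpa using (c3 _ (by rintro _ ⟨y, hy, rfl⟩; exact hg y (x0 p hp hy)) (prime_lr p2 g g⁻¹)
      ⟨1, p1, by simp⟩ _ ⟨x, hx, rfl⟩ 1 p1).1

variable {k : Type} [Field k] [Algebra k R] {G : Subgroup (GL (Fin n) R)}

theorem van_eq : St.van k G = P092GV.vanish k G :=
  congrArg (MvPolynomial.vanishingIdeal k) (Set.ext fun _ => exists_congr fun _ =>
    and_congr_right fun _ => ⟨fun e i j => (congrFun e (i, j)).symm,
      fun e => funext fun ij => (e ij.1 ij.2).symm⟩)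

theorem conn_iff : St.Conn G ↔ P092GV.ZClosed G ∧ (P092GV.vanish R G).IsPrime := by
  unfold St.Conn St.Pt
  rw [van_eq]
  rfl

theorem abs_conv (h : St.AbsSimple k G) : P092GV.AbsSimple k G := by
  refine ⟨(conn_iff.1 h.conn).1, (conn_iff.1 h.conn).2, van_eq.symm.trans
    (h.defined.trans (congrArg _ van_eq)), h.noncomm, fun N l c a => ?_⟩
  obtain ⟨X, x1, x2, x3, x4, x5⟩ := idc (P011I.zcl_iff.1 c)
  rcases h.simple X (x1.trans l) (conn_iff.2 ⟨P011I.zcl_iff.2 x2, (P011I.vanish_eq (H := X)).symm ▸ x3⟩)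
    fun g hg => x5 g (a g hg) with e | e
  · exact .inr (x4 e)
  · exact .inl (le_antisymm l (e ▸ x1))

theorem sc_conv (h : St.SConn G) : P011I.SConn G := fun m H π P c => by
  obtain ⟨Q, hQ⟩ := h m H π (fun e => P e.1 e.2) (conn_iff.2 ⟨c.closed, c.connected⟩)
    (fun g e => congrFun (congrFun (c.pol g) e.1) e.2) c.onto c.fin fun A _ _ g g' a b e =>
      c.central A g g' (fun p hp => a p (van_eq.ge hp))
        (fun p hp => b p (van_eq.ge hp)) (Matrix.ext fun i j => e (i, j))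
  have u : Function.Injective π := fun a b e => Subtype.ext (Units.ext (Matrix.ext fun i j =>
    (hQ a (i, j)).trans (by rw [e]; exact (hQ b (i, j)).symm)))
  refine ⟨MulEquiv.ofBijective π ⟨u, c.onto⟩, fun _ => rfl, fun i j => ⟨Q (i, j), fun g => ?_⟩⟩
  obtain ⟨g, rfl⟩ := (MulEquiv.ofBijective π ⟨u, c.onto⟩).surjective g
  rw [MulEquiv.symm_apply_apply]
  exact hQ g (i, j)

theorem pt_iff {L : Type} [Field L] [Algebra k L] {g : GL (Fin n) L} :
    St.Pt k G g ↔ g ∈ P011LT.Zs k G L :=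
  forall_congr' fun _ => imp_congr_left (van_eq (k := k) (G := G) ▸ P011IT.mem_vanish)

theorem pts_conv : St.Pts k G = P011L.Pts k G := by
  funext L _ _
  exact congrArg Subgroup.closure (Set.ext fun _ => pt_iff)

end

section

open Vale.Agent.P011L Vale.Agent.P011LT Vale.Agent.P011.H271 Vale.Agent.P011.H308
  UniformSpace NumberField
open Vale.Agent.P011.H738 (Place)

variable {k : Type} [Field k]

/-- **Every nontrivial nonarchimedean absolute value of a global field is equivalent to a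
normalized one.** -/
theorem ex_place (hk : Glob k) {a : AbsoluteValue k ℝ} (h1 : a.IsNontrivial)
    (h2 : IsNonarchimedean a) : ∃ w : Place k, w.abv.IsEquiv a := by
  let V : ValuationSubring k :=
    { P011.H738.integers a h2 with
      mem_or_inv_mem' := fun x => (le_total (a x) 1).imp id fun h => by
        change a x⁻¹ ≤ 1
        rw [map_inv₀]
        exact inv_le_one_of_one_le₀ h }
  have hV : V ≠ ⊤ := fun e => by
    obtain ⟨x, hx⟩ := h1.exists_abv_gt_one
    exact hx.not_ge (e.ge trivial : x ∈ V)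
  obtain ⟨w, hw⟩ : ∃ w : Place k, ∀ x, w.abv x ≤ 1 ↔ a x ≤ 1 := by
    rcases hk with hk | ⟨F, _, _, _, _⟩
    · obtain ⟨v, hv⟩ := exists_hos (R := 𝓞 k) V hV fun r => by
        obtain ⟨y, hy⟩ := IsIntegrallyClosed.isIntegral_iff.1
          (r.isIntegral_coe.tower_top (A := V))
        exact hy ▸ y.2
      have : Finite (𝓞 k ⧸ v.asIdeal) := Ring.HasFiniteQuotients.finiteQuotient v.ne_bot
      exact ⟨plHos k v, fun x => hosAbv_le_one.trans (SetLike.ext_iff.1 hv x)⟩
    · have := GFF.mk' F k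
      obtain ⟨w, hw⟩ := toPl_surjective (⟨V, hV⟩ : Pl k)
      exact ⟨w, fun x => (plV_le_one w x).symm.trans (SetLike.ext_iff.1 (congrArg (·.1) hw) x)⟩
  refine ⟨w, fun x y => ?_⟩
  rcases eq_or_ne y 0 with rfl | hy
  · simp
  · rw [← div_le_one (w.abv.pos hy), ← div_le_one (a.pos hy), ← map_div₀, ← map_div₀, hw]

variable {v w : AbsoluteValue k ℝ}

/-- The isomorphism of the completions at equivalent absolute values. -/
noncomputable def ceq (h : v.IsEquiv w) : v.Completion →ₐ[k] w.Completion :=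
  { Completion.mapRingHom (WithAbs.congr v w (.refl k)).toRingHom
      h.isEmbedding_equivWithAbs.continuous with
    commutes' := fun _ => Completion.mapRingHom_coe h.isEmbedding_equivWithAbs.continuous _ }

theorem ceq_cont (h : v.IsEquiv w) : Continuous (ceq h) := Completion.continuous_map

theorem ceq_ceq (h : v.IsEquiv w) (h' : w.IsEquiv v) (x : v.Completion) :
    ceq h' (ceq h x) = x := by
  induction x using Completion.induction_on with
  | hp => exact isClosed_eq ((ceq_cont h').comp (ceq_cont h)) continuous_id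
  | ih a => exact (congrArg _ ((ceq h).commutes a.1)).trans ((ceq h').commutes a.1)

variable {Ω : Type} [Field Ω] [Algebra k Ω] {n : ℕ} {G : Subgroup (GL (Fin n) Ω)}

theorem map_ceq (h : v.IsEquiv w) (h' : w.IsEquiv v) (x : Pts k G v.Completion) :
    mapP (ceq h') (mapP (ceq h) x) = x :=
  Subtype.ext (Units.ext (Matrix.ext fun _ _ => ceq_ceq h h' _))

theorem map_cont (h : v.IsEquiv w) : Continuous (mapP (G := G) (ceq h)) :=
  continuous_induced_rng.2 (Units.continuous_iff.2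
    ⟨(Units.continuous_val.comp continuous_subtype_val).matrix_map (ceq_cont h),
      (Units.continuous_coe_inv.comp continuous_subtype_val).matrix_map (ceq_cont h)⟩)

theorem ani_ceq (h : v.IsEquiv w) (an : Ani (Pts k G w.Completion)) :
    Ani (Pts k G v.Completion) := fun g y a =>
  an (GeneralLinearGroup.map (ceq h : v.Completion →+* w.Completion) g) y fun t => by
    obtain ⟨x, hx, e⟩ := a (Units.map (ceq h.symm : w.Completion →* v.Completion) t)
    refine ⟨_, map_Pts (ceq h) hx, ?_⟩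
    have := congrArg (ceq h : v.Completion →+* w.Completion).mapMatrix e
    rw [map_mul, map_mul] at this
    refine this.trans (congrArg _ ((Matrix.diagonal_map (map_zero _)).trans
      (congrArg diagonal (funext fun i => ?_))))
    rw [← map_zpow]
    exact ceq_ceq h.symm h _

section

variable (G) {I J : Type} (a : I → AbsoluteValue k ℝ) (b : J → AbsoluteValue k ℝ) {e : J → I}
  (he : ∀ v, (a (e v)).IsEquiv (b v))

/-- The map of the products. -/
noncomputable def psi : (∀ u, Pts k G (a u).Completion) →* ∀ v, Pts k G (b v).Completion :=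
  MonoidHom.pi fun v => (mapP (ceq (he v))).comp (Pi.evalMonoidHom _ (e v))

theorem psi_cont : Continuous (psi G a b he) :=
  continuous_pi fun v => (map_cont (he v)).comp (continuous_apply _)

theorem psi_bij (hb : Function.Bijective e) : Function.Bijective (psi G a b he) := by
  refine ⟨fun x y h => funext fun u => ?_, fun x => ?_⟩
  · obtain ⟨v, rfl⟩ := hb.2 u
    exact Function.LeftInverse.injective (map_ceq (he v) (he v).symm) (congrFun h v)
  · choose j hj using hb.2
    have q : ∀ u, (b (j u)).IsEquiv (a u) := fun u => by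
      have := (he (j u)).symm
      rwa [hj] at this
    refine ⟨fun u => mapP (ceq (q u)) (x (j u)), funext fun v => ?_⟩
    have : ∀ v', v' = v → ∀ c : (b v').IsEquiv (a (e v)),
        mapP (ceq (he v)) (mapP (ceq c) (x v')) = x v := by
      rintro _ rfl c
      exact map_ceq _ _ _
    exact this _ (hb.1 (hj _)) _

theorem psi_val (x : ∀ u, Pts k G (a u).Completion) (g : Matrix (Fin n) (Fin n) k)
    (h : ∀ u, (x u).1.1 = g.map (algebraMap k _)) (v : J) :
    (psi G a b he x v).1.1 = g.map (algebraMap k _) := Matrix.ext fun i j =>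
  (congrArg (ceq (he v)) (congrFun (congrFun (h (e v)) i) j)).trans ((ceq (he v)).commutes _)

end

/-- The anisotropic places of a family of groups of points. -/
def Ix (P : ∀ (L : Type) [Field L] [Algebra k L], Subgroup (GL (Fin n) L)) : Type :=
  {v : Quot (AbsoluteValue.IsEquiv : AbsoluteValue k ℝ → _ → Prop) //
    v.out.IsNontrivial ∧ IsNonarchimedean v.out ∧ Ani (P v.out.Completion)}

theorem ex_e (hk : Glob k) : ∃ e : Ix (Pts k G) → AG k G, Function.Bijective e ∧
    ∀ v, (e v).abv.IsEquiv v.1.out := by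
  choose e he using fun v : Ix (Pts k G) => show ∃ u : AG k G, u.abv.IsEquiv v.1.out from
    (ex_place hk v.2.1 v.2.2.1).elim fun w hw => ⟨ap w (ani_ceq hw v.2.2.2), hw⟩
  have q : ∀ a : AbsoluteValue k ℝ, (Quot.mk AbsoluteValue.IsEquiv a).out.IsEquiv a :=
    fun a => Quotient.mk_out a
  refine ⟨e, ⟨fun v v' h => Subtype.ext (v.1.out_eq.symm.trans ((Quot.sound
    ((he v).symm.trans (h ▸ he v'))).trans v'.1.out_eq)), fun u => ?_⟩, he⟩
  let v : Ix (Pts k G) := ⟨Quot.mk _ u.abv,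
    (q _).isNontrivial_congr.2 (P011.H698.place_nontrivial (pa u)),
    fun x y => le_max_iff.2 ((le_max_iff.1 (u.nonarch x y)).imp (q _ _ _).2 (q _ _ _).2),
    ani_ceq (q _) u.ani⟩
  refine ⟨v, ?_⟩
  have := congrArg (·.abv)
    (P011.H698.place_eq_of_isEquiv (v := pa _) (w := pa u) ((he v).trans (q _)))
  generalize e v = u' at this
  cases u
  cases u'
  congr

theorem td' (h : IsNonarchimedean v) (P : Subgroup (GL (Fin n) v.Completion)) :
    TotallyDisconnectedSpace P :=
  haveI : IsUltrametricDist (WithAbs v) :=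
    IsUltrametricDist.isUltrametricDist_of_isNonarchimedean_norm fun x y => h x.1 y.1
  td _

/-- The statement for a family of groups of points. -/
def Fam (P : ∀ (L : Type) [Field L] [Algebra k L], Subgroup (GL (Fin n) L)) : Prop :=
  ∃ δ : P k →* ∀ v : Ix P, P v.1.out.Completion,
    (∀ g v, (δ g v).1.1 = g.1.1.map (algebraMap k v.1.out.Completion)) ∧ St.MP δ ∧
    (Finite (Ix P) ∧ St.Prof δ) ∧ St.Her (P k) ∧ St.Sol (P k) ∧ St.Crit (P k) (IsEmpty (Ix P)) ∧
    commutator (P k) = (commutator (∀ v : Ix P, P v.1.out.Completion)).topologicalClosure.comap δ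

theorem fam [IsAlgClosure k Ω] (hk : Glob k) (h : P092GV.AbsSimple k G) (hS : P011I.SConn G) :
    Fam (Pts k G) := by
  have h' := P011I.abs_of h
  have z := zd hk h' hS
  obtain ⟨δ, hδ, mp⟩ := P011IZ.qi k Ω hk n G h hS
  obtain ⟨f, dn, sol⟩ := arith hk h' hS δ hδ
  have c : ∀ v : AG k G, CompactSpace (Pts k G v.abv.Completion) := fun v =>
    compact_pl hk h' (pa v) v.ani
  obtain ⟨e, hb, he⟩ := ex_e (G := G) hk
  have t := fun v : Ix (Pts k G) => td' v.2.2.1 (Pts k G v.1.out.Completion)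
  have t' := fun v : Ix (Pts k G) => t2p (Pts k G v.1.out.Completion)
  obtain ⟨c', mp', dn'⟩ := transfer _ (psi_cont G _ _ he) (psi_bij G _ _ he hb) mp dn
  have d := fun g => psi_val G _ _ he (δ g) _ (hδ g)
  exact ⟨_, d, mp', ⟨.of_injective e hb.1, prof z mp' dn'⟩,
    her z mp', sol, crit z mp' sol (fun _ => inferInstance) fun a =>
      (not_isEmpty_iff.1 a).elim fun v x y l => inj_of (fun g => d g v) (congrFun l v),
    comm_eq z mp' dn'⟩

theorem final [IsAlgClosure k Ω] (hk : St.Glob k) (h1 : St.AbsSimple k G) (h2 : St.SConn G) :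
    St.DA k G @St.MP ∧ (Finite (St.AG k G) ∧ St.DA k G @St.Prof) ∧ St.Her (St.Pts k G k) ∧
      St.Sol (St.Pts k G k) ∧ St.Crit (St.Pts k G k) (IsEmpty (St.AG k G)) ∧ St.DA k G @St.Com ∧
      ∀ (L : Type) [Field L] [Algebra k L] (g : GL (Fin n) L),
        g ∈ St.Pts k G L ↔ St.Pt k G g := by
  obtain ⟨δ, a, b, c, d, e, f, g⟩ : Fam (St.Pts k G) :=
    pts_conv (k := k) (G := G) ▸ fam hk (abs_conv h1) (sc_conv h2)
  refine ⟨⟨δ, a, b⟩, ⟨c.1, δ, a, c.2⟩, d, e, f, ⟨δ, a, congrArg SetLike.coe g⟩, fun L _ _ x => ?_⟩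
  rw [pts_conv, pt_iff, mem_Pts (P011I.abs_of (abs_conv h1))]

end

end Vale.Agent.N011
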