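import Vale.Agent.N011.Mod
import Vale.Agent.N011.Abs

/-!
The set of the anisotropic places is finite, weak approximation holds, and the finite quotients are
solvable.
-/

namespace Vale.Agent.N011

open Matrix Filter TensorProduct Topology Vale.Agent.P011L Vale.Agent.P011UY
  Vale.Agent.P011.H925.Full Vale.Agent.P092TO
open Vale.Agent.P011.H738 (Place)

theorem td {n : ℕ} {L : Type} [Field L] [TopologicalSpace L] [TotallyDisconnectedSpace L]
    (P : Subgroup (GL (Fin n) L)) : TotallyDisconnectedSpace P :=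
  have c : Continuous fun g : P => g.1.1 := Units.continuous_val.comp continuous_subtype_val
  have : TotallyDisconnectedSpace (Matrix (Fin n) (Fin n) L) := Pi.totallyDisconnectedSpace
  ⟨isTotallyDisconnected_of_image c.continuousOn
    (fun _ _ e => Subtype.ext (Units.ext e)) (isTotallyDisconnected_of_totallyDisconnectedSpace _)⟩

theorem t2p {n : ℕ} {L : Type} [NormedField L] (P : Subgroup (GL (Fin n) L)) : T2Space P :=
  inferInstance

variable {k : Type} [Field k]

theorem seq_weak {B : Set (Place k)} (hB : B.Finite) {w : Place k} (hw : w ∉ B) :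
    ∃ t : ℕ → k, Tendsto (fun j => algebraMap k w.comp (t j)) atTop (𝓝 (algebraMap k w.comp 1)) ∧
      ∀ v ∈ B, Tendsto (fun j => algebraMap k v.comp (t j)) atTop (𝓝 (algebraMap k v.comp 0)) := by
  classical
  choose t ht using fun j : ℕ => P011.H698.place_weak (insert w hB.toFinset)
    (fun v => algebraMap k _ (if v.1 = w then 1 else 0)) (Nat.one_div_pos_of_nat (n := j))
  have a : ∀ v ∈ insert w hB.toFinset, Tendsto (fun j => algebraMap k v.comp (t j)) atTop
      (𝓝 (algebraMap k v.comp (if v = w then 1 else 0))) := fun v hv =>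
    tendsto_iff_norm_sub_tendsto_zero.2 (squeeze_zero (fun _ => norm_nonneg _)
      (fun j => (ht j ⟨v, hv⟩).le) tendsto_one_div_add_atTop_nhds_zero_nat)
  refine ⟨t, by simpa using a w (Finset.mem_insert_self _ _), fun v hv => ?_⟩
  have := a v (Finset.mem_insert_of_mem (hB.mem_toFinset.2 hv))
  rwa [if_neg fun e : v = w => hw (e ▸ hv)] at this

variable {Ω : Type} [Field Ω] [Algebra k Ω] [IsAlgClosure k Ω] {n : ℕ}
  {G : Subgroup (GL (Fin n) Ω)}

/-- The place of an element of `A(G)`. -/
def pa (v : AG k G) : Place k := toPlace v.abv ⟨v.nonarch, v.normalized⟩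

/-- The element of `A(G)` of a place. -/
def ap (w : Place k) (h : Ani (Pts k G w.comp)) : AG k G :=
  ⟨w.abv, w.nonarch, (isPlace_abv w).2, h⟩

omit [IsAlgClosure k Ω] in
theorem inj_of {L : Type} [Field L] [Algebra k L] {d : Pts k G k → Pts k G L}
    (h : ∀ g, (d g).1.1 = g.1.1.map (algebraMap k L)) : Function.Injective d := fun a b e =>
  Subtype.ext (Units.ext (Matrix.map_injective (algebraMap k L).injective
    ((h a).symm.trans ((congrArg (·.1.1) e).trans (h b)))))

attribute [local instance] tp in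
theorem arith (hk : Glob k) (h : P092AG.AbsSimple k G) (hS : P011I.SConn G)
    (δ : Pts k G k →* ∀ v : AG k G, Pts k G v.abv.Completion)
    (hδ : ∀ g v, (δ g v).1.1 = g.1.1.map (algebraMap k v.abv.Completion)) :
    Finite (AG k G) ∧ DenseRange δ ∧ St.Sol (Pts k G k) := by
  have z := zd hk h hS
  have c : ∀ v : AG k G, CompactSpace (Pts k G v.abv.Completion) := fun v =>
    compact_pl hk h (pa v) v.ani
  have t : ∀ v : AG k G, TotallyDisconnectedSpace (Pts k G v.abv.Completion) := fun v =>
    td (L := (pa v).comp) _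
  have t' : ∀ v : AG k G, T2Space (Pts k G v.abv.Completion) := fun v => t2p _
  let d (v : AG k G) : Pts k G k →* Pts k G v.abv.Completion := (Pi.evalMonoidHom _ v).comp δ
  have i : ∀ v, Function.Injective (d v) := fun v => inj_of fun g => hδ g v
  rcases good hk h hS with ps | ⟨A, _, _, _, B, ι, l, M⟩
  · have : IsEmpty (AG k G) := ⟨fun v => by
      obtain ⟨N, n1, n2, n3⟩ := ex_prop z (i v)
      exact n3 (by rw [ps N n1 (z.nc z.dn_fi), top_sup_eq])⟩
    refine ⟨inferInstance, Function.Surjective.denseRange fun x => ⟨1, Subsingleton.elim _ _⟩,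
      fun Q _ _ f hf => Group.isSolvable_of_top_eq_bot _ ?_⟩
    rw [← Subgroup.map_top_of_surjective f hf, Subgroup.map_eq_bot_iff,
      ps f.ker inferInstance (z.nc z.dn_fi)]
  have t2' : ∀ w : Place k, T2Space (w.comp ⊗[k] A) := fun w => t2 _
  have b : ∀ v : AG k G, pa v ∈ B := fun v => by_contra fun hv => by
    obtain ⟨y, -, hy⟩ := SetLike.not_le_iff_exists.1 (z.nc z.dn)
    obtain ⟨u, u0, u1, u2⟩ := M.crv y hy
    obtain ⟨s, s1, s0⟩ := seq_weak M.fin hv
    have := (t' v).t1Space
    obtain ⟨W, hW⟩ := ProfiniteGrp.exist_openNormalSubgroup_sub_open_nhds_of_one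
      (isOpen_compl_singleton (x := d v (u 1))) fun e => u1 (i v (e.symm.trans (map_one _).symm))
    have := fi_comap (δ := d v) W.1.2
    have e1 := M.opn _ (W.2.comap (d v)) (z.nc z.dn_fi) (fun j => u (s j)) fun w hw => by
      simpa only [u0, map_one] using u2 w 0 s (s0 w hw)
    obtain ⟨x, hx, e⟩ := (W.1.isClosed.isCompact.image (M.cont (pa v))).isClosed.mem_of_tendsto
      (u2 (pa v) 1 s s1) (e1.mono fun j a => ⟨_, a, M.map (pa v) _ _ (hδ _ v)⟩)
    exact hW hx (M.inj (pa v) (e.trans (M.map (pa v) _ _ (hδ _ v)).symm))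
  refine ⟨?_, fun x => ?_, fun Q _ _ f hf => ?_⟩
  · have := M.fin.to_subtype
    exact .of_injective (fun v => (⟨pa v, b v⟩ : B)) fun v w e => by
      have := congrArg (·.1.abv) e
      cases v
      cases w
      congr
  · let Ξ (x : ∀ v : AG k G, Pts k G v.abv.Completion) (w : B) : w.1.comp ⊗[k] A :=
      l w (x (ap w.1 (M.ani _ w.2)))
    have e : IsClosedEmbedding Ξ := Continuous.isClosedEmbedding
      (continuous_pi fun w => (M.cont w).comp (continuous_apply _))
      fun x y e => funext fun v => M.inj (pa v) (congrFun e ⟨pa v, b v⟩)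
    rw [e.isInducing.closure_eq_preimage_closure_image, ← Set.range_comp]
    rw [show Ξ ∘ δ = fun (g : Pts k G k) (w : B) => (1 : w.1.comp) ⊗ₜ[k] ι g from
      funext fun g => funext fun w => M.map w _ _ (hδ g (ap w.1 (M.ani _ w.2)))]
    exact M.den fun w => x (ap w.1 (M.ani _ w.2))
  · obtain ⟨m, hm⟩ : ∃ m, derivedSeries (Pts k G k) m ≤ f.ker := by
      by_contra! a
      choose g g1 g2 using fun m => SetLike.not_le_iff_exists.1 (a m)
      obtain ⟨j, hj⟩ := (M.opn f.ker inferInstance (z.nc z.dn_fi) g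
        fun w hw => M.sol w hw g g1).exists
      exact g2 j hj
    exact ⟨m, by rwa [← map_derivedSeries_eq hf, Subgroup.map_eq_bot_iff]⟩

end Vale.Agent.N011
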