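import Vale.Agent.N011.Td

/-!
The models of the anisotropic groups of type `A`.
-/

namespace Vale.Agent.N011

open Matrix Module Filter TensorProduct Topology Vale.Agent.P011L Vale.Agent.P011UY
  Vale.Agent.P011LT Vale.Agent.P011.H925
open Vale.Agent.P011.H738 (Place)
open Vale.Agent.P011LB (lf lf_tmul Mn Z_map)

attribute [local instance] tp

variable {k K : Type} [Field k] [Field K] [Algebra k K] [IsSepClosure k K] {m n : ℕ}
  {G : Subgroup (GL (Fin m) K)} {φ : G ≃* SA K n}

theorem nc_map {Γ Δ : Type} [Group Γ] [Group Δ] {η : Γ →* Δ} (e : Function.Injective η)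
    {N : Subgroup Γ} (h : ¬N ≤ Subgroup.center Γ) : ¬N.map η ≤ Subgroup.center Δ :=
  fun a => h fun g b => Subgroup.mem_center_iff.2 fun x => e (by
    rw [η.map_mul, η.map_mul]
    exact Subgroup.mem_center_iff.1 (a ⟨g, b, rfl⟩) _)

open Vale.Agent.P011UE Vale.Agent.P011UH in
theorem good_inner (hk : Glob k) (an : Ani (Pts k G k)) (hn : 2 ≤ n) (h : Form k φ)
    (ho : ∀ σ : K ≃ₐ[k] K, Inn φ ⊤ σ) : Good k (Pts k G) := by
  classical
  have : NeZero n := ⟨by omega⟩
  have := P011U.Glob.inf hk
  have := Infinite.of_injective _ (algebraMap k K).injective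
  obtain ⟨A, _, _, ⟨M⟩⟩ := exists_mi hn h ho
  have := M.simple
  let _ := DivisionRing.ofIsUnitOrEqZero (M.div h.1 h.2.2 an)
  have := M.central
  have : FiniteDimensional k A := Module.finite_of_finrank_pos (M.rank ▸ pow_pos (NeZero.pos n) 2)
  choose N hN using P011.H327.TN.exists_hasNrd (K := k) (D := A) M.rank
  have n1 : ∀ x, (M.j x).det = algebraMap k K (N x) := fun x => hN x K M.j
  let N' : A →* k :=
    { toFun := N
      map_one' := (algebraMap k K).injective (by rw [← n1, map_one, map_one, det_one])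
      map_mul' := fun x y => (algebraMap k K).injective (by
        rw [map_mul, ← n1, ← n1, ← n1, map_mul, det_mul]) }
  let ι : Pts k G k →* A := M.hom h.1 hn (AlgHom.id k A)
  have i1 : Function.Injective ι := fun a b c => M.psk_inj h.1 c
  let η : Pts k G k →* G1 N' := ι.toHomUnits.codRestrict _ fun g =>
    mem_G1.2 ((algebraMap k K).injective ((n1 _).symm.trans ((congrArg det (M.j_up h.1 g)).trans
      ((mem_SA.1 (φ _).2).trans (map_one _).symm))))
  have e1 : Function.Injective η := fun a b c => i1 (congrArg (·.1.1) c)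
  have e2 : Function.Surjective η := fun u => (M.surj h.1 (u := u.1.1) ((n1 _).trans
    ((congrArg _ (mem_G1.1 u.2)).trans (map_one _)))).imp fun g a => Subtype.ext (Units.ext a)
  have hD : Dv k A n N' := ⟨hk, inferInstance, hn, M.rank, hN⟩
  obtain ⟨r, _⟩ := ram k A n N' hD
  refine .inr ⟨A, _, _, inferInstance, {w | Dp A w}, ι,
    fun w => M.hom h.1 hn Algebra.TensorProduct.includeRight,
    r.subset fun v e => not_spl hD e, fun w hw => ?_,
    fun w => by
      exact (show Continuous fun z : GP k A w.comp n => z.1.1 from continuous_induced_dom).comp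
        (M.loc_cont h.1 hn), fun w => ?_, fun w g g' e => ?_,
    fun H h1 h2 g hg => ?_, fun x => ?_, fun w hw => ?_, fun y hy => ?_⟩
  · have : Infinite w.comp := .of_injective _ (algebraMap k _).injective
    exact M.ani h.1 hn h.2.2 hw
  · refine (injective_iff_map_eq_one _).2 fun g e => ?_
    let Ω := AlgebraicClosure w.comp
    let κ : K →ₐ[k] Ω := IsAlgClosed.lift
    let ρ := IsScalarTower.toAlgHom k w.comp Ω
    let F : w.comp ⊗[k] A →ₐ[w.comp] Mn n Ω := lf (M.rp κ)
    have hF := M.ps_nat ρ F.toRingHom.toAddMonoidHom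
      (w := (Algebra.TensorProduct.includeRight : A →ₐ[k] w.comp ⊗[k] A)) (w' := M.rp κ)
      (fun c a => (map_smul F c _).trans ((congrArg _ ((lf_tmul _ _ _).trans (one_smul _ _))).trans
        (algebraMap_smul Ω c _).symm)) g.1.1
    have h5 := M.ps_inj h.1 h.2.2 κ (Z_map ρ (Mi.zp (φ := φ) h.1 hn g))
      (hF.symm.trans ((congrArg F e).trans (map_one F)))
    exact Subtype.ext (Units.ext (Matrix.map_injective ρ.injective
      (h5.trans (Matrix.map_one _ (map_zero ρ) (map_one ρ)).symm)))
  · obtain rfl : g' = mapP (Algebra.ofId k w.comp) g := Subtype.ext (Units.ext e)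
    exact M.loc_map h.1 hn g
  · obtain ⟨δ, d1, d2⟩ := mpd k A n N' hD
    obtain ⟨W, w1, -, w3⟩ := d2 (H.map η) (h1.map η e2) (nc_map e1 h2)
    have t : Tendsto (fun j => δ (η (g j))) atTop (𝓝 1) := tendsto_pi_nhds.2 fun v => by
      have i : IsInducing fun w : GP k A (pl v).comp n => w.1.1 := ⟨rfl⟩
      exact i.tendsto_nhds_iff.2 ((hg (pl v) v.div).congr fun j => (d1 (η (g j)) v).symm)
    refine (t.eventually (w1.mem_nhds W.one_mem)).mono fun j a => ?_
    obtain ⟨u, hu, e⟩ := w3.ge a
    exact e1 e ▸ hu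
  · obtain ⟨v0⟩ : Nonempty (Place k) := inferInstance
    let ad (w : {w | Dp A w}) : AD k A := ⟨w.1.abv, w.1.nonarch, (Full.isPlace_abv w.1).2, w.2⟩
    refine map_mem_closure (f := fun (Z : ∀ v : AD k A, GP k A (Full.Kv v.abv) n) w =>
      ((Z (ad w)).1.1 : w.1.comp ⊗[k] A))
      (continuous_pi fun w => (show Continuous fun z : GP k A w.1.comp n => z.1.1 from
        continuous_induced_dom).comp (continuous_apply (ad w)))
      (dense hD (Finset.insert_nonempty v0 r.toFinset) (fun v e => by_contra fun z =>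
        e (Finset.mem_insert_of_mem (r.mem_toFinset.2 z))) nsur
        fun v => M.loc h.1 hn (pl v).comp (x ⟨pl v, v.div⟩)) ?_
    rintro _ ⟨u, rfl⟩
    obtain ⟨g, rfl⟩ := e2 u
    exact ⟨g, rfl⟩
  · have := proper_pl hk w
    let _ := P011.H271.nnfPlace w
    exact Td.sol fun ε e => near_div hw ι e
  · obtain ⟨s, hs⟩ : ∃ s, s * ι y ≠ ι y * s := by
      by_contra! a
      exact hy (Subgroup.mem_center_iff.2 fun g => i1 (by rw [map_mul, map_mul, a]))
    have u0 : ∀ t : k, 1 + t • s ≠ 0 := fun t e => by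
      have a : t • s = -1 := eq_neg_of_add_eq_zero_right e
      have b : t • (s * ι y) = t • (ι y * s) := by
        rw [← smul_mul_assoc, ← mul_smul_comm, a, neg_mul, mul_neg, one_mul, mul_one]
      rcases eq_or_ne t 0 with rfl | c
      · simp at e
      · exact hs (smul_right_injective A c b)
    refine curve i1 (y := y) (u := fun t => Units.mk0 _ (u0 t)) (fun w t0 t l => Td.lin l)
      (fun t => M.surj h.1 ?_) (by simp) (by simpa [add_mul, mul_add] using hs)
    simp only [map_mul, det_mul]
    rw [mul_right_comm (M.j _).det, mul_assoc, ← det_mul, ← det_mul, ← map_mul, ← map_mul,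
      ← map_mul ι, Units.mul_inv, mul_inv_cancel, map_one, map_one, det_one, one_mul, map_one,
      det_one]

section

variable {A C : Type} [Ring A] [StarRing A] [Field C] [StarRing C] [Algebra C A] [StarModule C A]

theorem unit_of_aniso [FiniteDimensional C A] (ha : ∀ x : A, star x * x = 0 → x = 0) {z : C}
    (hz : star z ≠ z) {s : A} (hs : star s = s) : IsUnit (algebraMap C A z + s) := by
  refine Algebra.lmul_isUnit_iff.1 ((LinearMap.isUnit_iff_ker_eq_bot (Algebra.lmul C A _)).2
    (LinearMap.ker_eq_bot'.2 fun x hx => ha x ?_))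
  have h1 : z • x + s * x = 0 := by
    rw [Algebra.smul_def, ← add_mul]
    exact hx
  have h2 : z • (star x * x) + star x * (s * x) = 0 := by
    rw [← mul_smul_comm, ← mul_add, h1, mul_zero]
  have h3 := congrArg star h2
  rw [star_add, star_smul, star_mul, star_mul, star_mul, star_star, hs, star_zero, mul_assoc,
    ← h2, add_left_inj, ← sub_eq_zero, ← sub_smul] at h3
  exact (smul_eq_zero.1 h3).resolve_left (sub_ne_zero.2 hz)

theorem ex_sym {z : C} (hz : star z ≠ z) {y : A} (hy : ∃ x, x * y ≠ y * x) :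
    ∃ s, star s = s ∧ s * y ≠ y * s := by
  by_contra! a
  obtain ⟨x, hx⟩ := hy
  have d : z - star z ≠ 0 := sub_ne_zero.2 hz.symm
  have h2 : star ((z - star z)⁻¹ • (x - star x)) = (z - star z)⁻¹ • (x - star x) := by
    rw [star_smul, star_inv₀, star_sub, star_sub, star_star, star_star, ← neg_sub z, ← neg_sub x,
      inv_neg, neg_smul_neg]
  have h1 : star (x - z • (z - star z)⁻¹ • (x - star x)) = x - z • (z - star z)⁻¹ • (x - star x) := by
    rw [star_sub, star_smul, h2, sub_eq_sub_iff_sub_eq_sub, ← sub_smul, smul_smul, ← neg_sub z,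
      neg_mul, mul_inv_cancel₀ d, neg_smul, one_smul, neg_sub]
  have h3 := a _ h1
  rw [sub_mul, mul_sub, smul_mul_assoc z, mul_smul_comm z, a _ h2, sub_left_inj] at h3
  exact hx h3

end

open Vale.Agent.P011LB Vale.Agent.P011NC in
theorem good_outer (hk : Glob k) (an : Ani (Pts k G k)) (hn : 3 ≤ n) (h : Form k φ)
    (ho : ∃ σ : K ≃ₐ[k] K, ¬Inn φ ⊤ σ) : Good k (Pts k G) := by
  have : NeZero n := ⟨by omega⟩
  have := P011U.Glob.inf hk
  obtain ⟨A, _, _, _, ⟨M⟩⟩ := exists_md P011LA.a1 hn h ho
  have := M.simple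
  obtain ⟨C, _, _, _, _, _, _, hC⟩ := exists_ctr k A
  let _ := (M.kap C).toRingHom.toAlgebra
  obtain ⟨η, ⟨e1, e2⟩, e3⟩ := M.eta h.1 hn (C := C) fun _ => rfl
  have hA : Ans k C A n :=
    ⟨hk, M.fixed, M.star_ne C, hC, M.simple, hn, M.rank C, M.aniso h.1 h.2.2 an⟩
  obtain ⟨δ, d1, d0, d2⟩ := clauseA_all hA (M.sp (C := C) fun _ => rfl)
  have : FiniteDimensional C A := .of_finrank_pos (M.rank C ▸ pow_pos (NeZero.pos n) 2)
  have := (P011.H519.quad hA.fixed hA.star_ne).1
  have : FiniteDimensional k A := Module.Finite.trans C A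
  let ι : Pts k G k →* A := M.hom h.1 hn (AlgHom.id k A)
  have i1 : Function.Injective ι := fun a b c => M.psk_inj h.1 c
  have i2 : ∀ g, ι g * star (ι g) = 1 := fun g => (e3 g ▸ (η g).1.2.2 :)
  refine .inr ⟨A, _, _, inferInstance, P011.H732F.Adiv k C A, ι,
    fun w => M.hom h.1 hn Algebra.TensorProduct.includeRight, ?_,
    fun w hw => M.ani' h.1 hn h.2.2 (Full.plAG ⟨w, hw⟩),
    fun w => by
      exact (show Continuous fun z : Full.GP k A w.comp n => z.1.1 from
        continuous_induced_dom).comp (M.loc_cont h.1 hn), fun w => ?_, fun w g g' e => ?_,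
    fun H h1 h2 g hg => ?_, fun x => ?_, fun w hw => ?_, fun y hy => ?_⟩
  · rcases hk with hk | ⟨F, _, _, _, _⟩
    · exact adiv_finite_nf hA
    · have := P011.H271.GFF.mk' F k
      exact P011.H271.StarF.adiv_finite hA.anis (by omega)
  · refine (injective_iff_map_eq_one _).2 fun g e => ?_
    let Ω := AlgebraicClosure w.comp
    let κ : K →ₐ[k] Ω := IsAlgClosed.lift
    let ρ := IsScalarTower.toAlgHom k w.comp Ω
    let F : w.comp ⊗[k] A →ₐ[w.comp] Mn n Ω := lf (Md.rp M κ)
    have hF := M.ps_nat ρ F.toRingHom.toAddMonoidHom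
      (w := (Algebra.TensorProduct.includeRight : A →ₐ[k] w.comp ⊗[k] A)) (w' := Md.rp M κ)
      (fun c a => (map_smul F c _).trans ((congrArg _ ((lf_tmul _ _ _).trans (one_smul _ _))).trans
        (algebraMap_smul Ω c _).symm)) g.1.1
    have h5 := M.ps_inj h.1 h.2.2 κ (Z_map ρ (Md.zp (φ := φ) h.1 hn g))
      (hF.symm.trans ((congrArg F e).trans (map_one F)))
    exact Subtype.ext (Units.ext (Matrix.map_injective ρ.injective
      (h5.trans (Matrix.map_one _ (map_zero ρ) (map_one ρ)).symm)))
  · obtain rfl : g' = mapP (Algebra.ofId k w.comp) g := Subtype.ext (Units.ext e)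
    exact M.loc_map h.1 hn g
  · obtain ⟨W, w1, -, w3⟩ := d2 (H.map η) (h1.map η e2) (nc_map e1 h2)
    have t : Tendsto (fun j => δ (η (g j))) atTop (𝓝 1) := tendsto_pi_nhds.2 fun v => by
      have i : IsInducing fun w : Full.GP k A v.pl.1.comp n => w.1.1 := ⟨rfl⟩
      exact i.tendsto_nhds_iff.2 ((hg v.pl v.pl.2).congr fun j =>
        (e3 (g j) ▸ d1 (η (g j)) v :).symm)
    refine (t.eventually (w1.mem_nhds W.one_mem)).mono fun j a => ?_
    obtain ⟨u, hu, e⟩ := w3.ge a
    exact e1 e ▸ hu
  · let Φ : Full.HA k C A n → ∀ w : P011.H732F.Adiv k C A, w.1.comp ⊗[k] A :=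
      fun Z w => (Z (Full.plAG w)).1.1
    refine map_mem_closure (f := Φ)
      (continuous_pi fun w => (show Continuous fun z : Full.GP k A w.1.comp n => z.1.1 from
        continuous_induced_dom).comp (continuous_apply (Full.plAG w)))
      (d0 fun v => M.loc h.1 hn v.pl.1.comp (x v.pl)) ?_
    rintro _ ⟨u, rfl⟩
    obtain ⟨g, rfl⟩ := e2 u
    exact ⟨g, funext fun w => (e3 g ▸ d1 (η g) (Full.plAG w) :).symm⟩
  · have := proper_pl hk w
    let _ := P011.H271.nnfPlace w
    obtain ⟨ψ, hψ⟩ := hw
    exact Td.sol fun ε e => P011.H738.exists_derived_coord (F := w.comp) hA.fixed hA.star_ne ψ hψ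
      ι.toHomUnits i2 (finBasis k A) e
  · obtain ⟨z, hz⟩ := hA.star_ne
    obtain ⟨s, s1, hs⟩ := ex_sym hz (y := ι y) (by
      by_contra! a
      exact hy (Subgroup.mem_center_iff.2 fun g => i1 (by rw [map_mul, map_mul, a])))
    have s2 : ∀ t : k, star (t • s) = t • s := fun t => by rw [M.stsm, s1]
    choose p hp using fun t : k => unit_of_aniso hA.aniso hz (s2 t)
    choose q hq using fun t : k => unit_of_aniso hA.aniso (z := star z)
      (by rw [star_star]; exact hz.symm) (s2 t)
    have c1 : ∀ t, star (p t).1 = (q t).1 := fun t => by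
      rw [hp, hq, star_add, s2, algebraMap_star_comm]
    have c2 : ∀ t, star (q t)⁻¹.1 = (p t)⁻¹.1 := fun t => Units.eq_inv_of_mul_eq_one_left (by
      rw [← star_star (p t).1, c1, ← star_mul, Units.inv_mul, star_one])
    have c3 : ∀ t, (p t).1 = (q t).1 + algebraMap C A (z - star z) := fun t => by
      rw [hp, hq, map_sub]
      abel
    have c4 : ∀ t, Commute (q t) (p t) := fun t => Units.ext (by
      rw [Units.val_mul, Units.val_mul, c3, mul_add, add_mul, Algebra.commutes])
    have c5 : ∀ t, star (p t * (q t)⁻¹).1 = (p t * (q t)⁻¹)⁻¹.1 := fun t => by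
      rw [Units.val_mul, star_mul, c1, c2, ← Units.val_mul, _root_.mul_inv_rev, inv_inv,
        (c4 t).inv_right.eq]
    refine curve i1 (y := y) (u := fun t => p t * (q t)⁻¹) (fun w t0 t l => ?_)
      (fun t => M.surj h.1 ?_ ?_) ?_ fun e => hs ?_
    · refine Td.mul (f := fun j => (p (t j)).1) ?_ (Td.inv ?_)
      · simp only [hp]
        exact Td.lin l
      · simp only [hq]
        exact Td.lin l
    · generalize p t * (q t)⁻¹ = u, c5 t = c
      have c' : star u⁻¹.1 = u.1 := by rw [← c, star_star]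
      simp only [star_mul, c, c', mul_assoc]
      rw [← mul_assoc (ι y⁻¹), i2, one_mul, Units.inv_mul_cancel_left, ← mul_assoc (ι y), i2,
        one_mul, Units.mul_inv]
    · let f : A →ₐ[k] Mn n K := (AlgHom.fst k _ _).comp M.j
      show (f _).det = 1
      simp only [map_mul, det_mul]
      rw [mul_right_comm (f _).det, mul_assoc, ← det_mul, ← det_mul, ← map_mul, ← map_mul,
        ← map_mul ι, Units.mul_inv, mul_inv_cancel, map_one, map_one, det_one, one_mul, map_one,
      det_one]
    · refine Commute.mul_left (a := (p 0).1) ?_ (Commute.units_inv_left ?_)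
      · rw [hp, zero_smul, add_zero]
        exact Algebra.commutes _ _
      · rw [hq, zero_smul, add_zero]
        exact Algebra.commutes _ _
    · have a : (p 1 * (q 1)⁻¹).1 = 1 + (z - star z) • (q 1)⁻¹.1 := by
        rw [Units.val_mul, c3, add_mul, Units.mul_inv, Algebra.smul_def]
      rw [a, add_mul, mul_add, one_mul, mul_one, add_right_inj, smul_mul_assoc,
        mul_smul_comm] at e
      have b : Commute (q 1).1 (ι y) :=
        Commute.units_inv_left_iff.1 (smul_right_injective A (sub_ne_zero.2 hz.symm) e)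
      have b' := b.eq
      rwa [hq, one_smul, add_mul, mul_add, Algebra.commutes, add_right_inj] at b'

theorem good_form (hk : Glob k) {D : P183CH.Chev} (hD : P011U.SC D) (φ : G ≃* D.grp K)
    (h : Form k φ) : Good k (Pts k G) := by
  have := P011U.Glob.inf hk
  have := Infinite.of_injective _ (algebraMap k K).injective
  rcases split hk hD φ h with a | ⟨an, n, ψ, hn, f⟩
  · exact .inl a
  by_cases hi : ∀ σ : K ≃ₐ[k] K, Inn ψ ⊤ σ
  · exact good_inner hk an hn f hi
  · refine good_outer hk an (by_contra fun e => hi ?_) f (not_forall.1 hi)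
    obtain rfl : n = 2 := by omega
    exact P011UH.inn_of_two f

theorem good {Ω : Type} [Field Ω] [Algebra k Ω] [IsAlgClosure k Ω] {G : Subgroup (GL (Fin n) Ω)}
    (hk : Glob k) (h : P092AG.AbsSimple k G) (hS : P011I.SConn G) : Good k (Pts k G) := by
  have := IsAlgClosure.isAlgClosed k (K := Ω)
  obtain ⟨D, φ, hD, f3, f4⟩ := ex_form hk h hS
  have e : Pts k (P092AG.pts (separableClosure k Ω) G) = Pts k G := by
    funext L _ _
    simp only [Pts, f4]
  exact e ▸ good_form hk hD φ f3

end Vale.Agent.N011
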