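import Vale.Agent.P011IT.Trf
import Mathlib.GroupTheory.IsSubnormal
import Mathlib.GroupTheory.Index

/-!
Zariski dense subgroups of an absolutely simple group: subgroups which are normalised by a subgroup
of finite index.
-/

open Set Matrix

namespace Vale.Agent.N011

open Vale.Agent.P092AG Vale.Agent.P092A2

variable {n : ℕ} {k R Γ : Type} [Field k] [Field R] [Algebra k R] [Group Γ]
  {𝔾 : Subgroup (GL (Fin n) R)} (ι : Γ →* GL (Fin n) R)

/-- The image of `M` is Zariski dense. -/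
def Dn (𝔾 : Subgroup (GL (Fin n) R)) (M : Subgroup Γ) : Prop :=
  (𝔾 : Set (GL (Fin n) R)) ⊆ zcl (M.map ι : Set (GL (Fin n) R))

/-- `Γ` is a Zariski dense subgroup. -/
structure Zd (k : Type) [Field k] [Algebra k R] (𝔾 : Subgroup (GL (Fin n) R)) : Prop where
  abs : AbsSimple k 𝔾
  inj : Function.Injective ι
  mem : ∀ g, ι g ∈ 𝔾
  dn : Dn ι 𝔾 ⊤

/-- `M` normalises `N`. -/
def Nm (M N : Subgroup Γ) : Prop := ∀ m ∈ M, ∀ x ∈ N, m * x * m⁻¹ ∈ N

variable {ι}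

namespace Zd

variable (h : Zd ι k 𝔾) {M N : Subgroup Γ}
include h

theorem le (M : Subgroup Γ) : M.map ι ≤ 𝔾 := by
  rintro _ ⟨g, -, rfl⟩
  exact h.mem g

theorem prime (hM : Dn ι 𝔾 M) : (van (M.map ι : Set (GL (Fin n) R))).IsPrime := by
  rw [show van (M.map ι : Set (GL (Fin n) R)) = van (𝔾 : Set (GL (Fin n) R)) from
    le_antisymm (van_zcl.ge.trans (van_anti hM)) (van_anti (h.le M))]
  exact h.abs.conn

theorem dn_fi [M.FiniteIndex] : Dn ι 𝔾 M := by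
  obtain ⟨c, -, h1⟩ := irred (h.prime h.dn) (Set.toFinite (univ : Set (Γ ⧸ M)))
    (T := fun c => {g | (ι c.out)⁻¹ * g ∈ M.map ι}) (by
      rintro _ ⟨g, -, rfl⟩
      refine ⟨(g : Γ ⧸ M), trivial, (g : Γ ⧸ M).out⁻¹ * g, ?_, by rw [map_mul, map_inv]⟩
      exact QuotientGroup.eq.1 (QuotientGroup.out_eq' _))
  intro g hg
  have h2 := zcl_subset zcl_closed h1 (h.dn (𝔾.mul_mem (h.mem c.out) hg))
  refine map_zcl (PF.mulE (pf_c ((ι c.out)⁻¹ : GL (Fin n) R)) PF.entry)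
    (fun s hs => ⟨(ι c.out)⁻¹ * s, subset_zcl hs, rfl⟩) h2 ?_
  rw [← Units.val_mul, inv_mul_cancel_left]

omit h in
theorem comm (hM : Dn ι 𝔾 M) {x : Γ} (hx : ∀ m ∈ M, m * x = x * m) :
    ∀ g ∈ 𝔾, g * ι x = ι x * g := fun g hg =>
  Units.ext (eq_zcl (PF.mulE PF.entry (pf_c (ι x))) (PF.mulE (pf_c (ι x)) PF.entry) (by
    rintro _ ⟨m, hm, rfl⟩
    rw [← Units.val_mul, ← Units.val_mul, ← map_mul, ← map_mul, hx m hm]) (hM hg))

theorem cen (hM : Dn ι 𝔾 M) {x : Γ} {F : Set Γ} (hF : F.Finite)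
    (hx : ∀ m ∈ M, m * x * m⁻¹ * x⁻¹ ∈ F) : x ∈ Subgroup.center Γ := by
  refine Subgroup.mem_center_iff.2 fun g => h.inj ?_
  rw [map_mul, map_mul]
  refine comm hM (fun m hm => h.inj ?_) _ (h.mem g)
  rw [map_mul, map_mul]
  refine comm_of_finite (h.prime hM) (hF.image ι) ?_ ⟨m, hm, rfl⟩
  rintro _ ⟨y, hy, rfl⟩
  exact ⟨_, hx y hy, by simp only [map_mul, map_inv]⟩

theorem fin_cen : (Subgroup.center Γ : Set Γ).Finite :=
  ((P011IT.cen_finite h.abs).preimage h.inj.injOn).subset fun x hx =>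
    ⟨h.mem x, comm h.dn fun m _ => Subgroup.mem_center_iff.1 hx m⟩

theorem dn_nc (hM : Dn ι 𝔾 M) (hN : Nm M N) (hc : ¬N ≤ Subgroup.center Γ) : Dn ι 𝔾 N := by
  refine (finite_or_dense h.abs (h.le N) hM (h.le M) ?_).resolve_left fun e => hc fun x hx => ?_
  · rintro _ ⟨m, hm, rfl⟩ _ ⟨x, hx, rfl⟩
    exact ⟨_, hN m hm x hx, by simp only [map_mul, map_inv]⟩
  · exact h.cen hM (F := N) ((e.preimage h.inj.injOn).subset fun y hy => ⟨y, hy, rfl⟩)
      fun m hm => N.mul_mem (hN m hm x hx) (N.inv_mem hx)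

theorem nc (hM : Dn ι 𝔾 M) : ¬M ≤ Subgroup.center Γ := fun e => by
  obtain ⟨a, ha, b, hb, h2⟩ := h.abs.ncomm
  refine h2 (Units.ext (eq_zcl (PF.mulE (pf_c a) PF.entry) (PF.mulE PF.entry (pf_c a)) ?_ (hM hb)))
  rintro _ ⟨x, hx, rfl⟩
  exact congrArg Units.val (comm h.dn (fun m _ => Subgroup.mem_center_iff.1 (e hx) m) a ha)

theorem inf_nc (hM : Dn ι 𝔾 M) (h1 : Nm M N) (h2 : Nm N M) (hc : ¬N ≤ Subgroup.center Γ) :
    ¬M ⊓ N ≤ Subgroup.center Γ := fun e => hc fun x hx =>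
  h.cen hM h.fin_cen fun m hm => e ⟨by
    rw [mul_assoc, mul_assoc, ← mul_assoc x]
    exact M.mul_mem hm (h2 x hx _ (M.inv_mem hm)),
    N.mul_mem (h1 m hm x hx) (N.inv_mem hx)⟩

theorem nc_comm : ¬commutator Γ ≤ Subgroup.center Γ := fun e => h.nc h.dn fun x _ =>
  h.cen h.dn h.fin_cen fun m _ =>
    e (Subgroup.commutator_mem_commutator (Subgroup.mem_top m) (Subgroup.mem_top x))

/-- **A noncentral subgroup which is normalised by a subgroup of finite index contains a noncentral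
normal subgroup.** -/
theorem core [M.FiniteIndex] (hN : Nm M N) (hc : ¬N ≤ Subgroup.center Γ) :
    ¬N.normalCore ≤ Subgroup.center Γ := by
  classical
  let Q := M.normalCore
  have q1 : Dn ι 𝔾 Q := h.dn_fi
  have q2 : ∀ A, Nm A Q := fun A m _ x hx => M.normalCore_normal.conj_mem x hx m
  have q3 : Nm Q N := fun m hm => hN m (M.normalCore_le hm)
  have := Fintype.ofFinite (Γ ⧸ Q)
  let C (o : Γ) : Subgroup Γ := N.comap (MulAut.conj o⁻¹).toMonoidHom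
  have c0 : ∀ o x, x ∈ C o ↔ o⁻¹ * x * o ∈ N := fun o x => by simp [C]
  have h1 := Finset.inf_induction (p := fun A => Nm Q A ∧ ¬Q ⊓ A ≤ Subgroup.center Γ)
    (s := Finset.univ) (f := fun q : Γ ⧸ Q => C q.out)
    ⟨fun _ _ _ _ => trivial, by rw [inf_top_eq]; exact h.nc q1⟩
    (fun A a B b => by
      have a1 : Nm Q (Q ⊓ A) := fun m hm x hx => ⟨q2 Q m hm x hx.1, a.1 m hm x hx.2⟩
      have b1 : Nm Q (Q ⊓ B) := fun m hm x hx => ⟨q2 Q m hm x hx.1, b.1 m hm x hx.2⟩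
      refine ⟨fun m hm x hx => ⟨a.1 m hm x hx.1, b.1 m hm x hx.2⟩, ?_⟩
      rw [inf_inf_distrib_left]
      exact h.inf_nc (h.dn_nc q1 a1 a.2) (fun m hm => b1 m hm.1) (fun m hm => a1 m hm.1) b.2)
    fun q _ => by
      have a1 : Nm Q (C q.out) := fun m hm x hx => (c0 _ _).2 (by
        have := q3 _ (q2 ⊤ q.out⁻¹ trivial m hm) _ ((c0 _ _).1 hx)
        simpa [mul_assoc] using this)
      refine ⟨a1, h.inf_nc q1 a1 (q2 _) fun e => hc fun x hx => ?_⟩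
      have := (Subgroup.normal_of_characteristic (Subgroup.center Γ)).conj_mem _
        (e ((c0 q.out (q.out * x * q.out⁻¹)).2 (by simpa [mul_assoc] using hx))) q.out⁻¹
      simpa [mul_assoc] using this
  refine fun e => h1.2 fun x hx => e fun g => ?_
  have h2 := (c0 _ _).1 (Finset.inf_le (f := fun q : Γ ⧸ Q => C q.out)
    (Finset.mem_univ ((g⁻¹ : Γ) : Γ ⧸ Q)) hx.2)
  have h3 := q3 _ (Q.inv_mem (QuotientGroup.eq.1 (QuotientGroup.out_eq' ((g⁻¹ : Γ) : Γ ⧸ Q)))) _ h2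
  simpa [mul_assoc] using h3

end Zd

end Vale.Agent.N011
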