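import Vale.Agent.P011IZ.End
import Vale.Agent.N011.Zar

/-!
Reduction to the forms of the Chevalley groups: Zariski density of the rational points,
compactness at the anisotropic places, and the reduction to the anisotropic forms of type `A`.
-/

namespace Vale.Agent.N011

open Matrix Vale.Agent.P011L Vale.Agent.P011LZ Vale.Agent.P183CH Vale.Agent.P011LT Vale.Agent.P011U
  Vale.Agent.P011UGA

section split

variable {k K : Type} [Field k] [Field K] [Algebra k K] [IsSepClosure k K] {m : ℕ}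
  {G : Subgroup (GL (Fin m) K)}

theorem ps_D (an : Ani (Pts k G k)) (φ : G ≃* SD K) [NumberField k] (f : Form k φ)
    {σ : K ≃ₐ[k] K} (hσ : ¬Inn φ (SD K) (σ * σ)) : PSimple (Pts k G k) := by
  have : Infinite k := .of_injective _ Nat.cast_injective
  have : CharZero K := charZero_of_injective_algebraMap (algebraMap k K).injective
  have := IsSepClosure.sep_closed k (K := K)
  have : IsAlgClosed K := IsSepClosed.isAlgClosed_of_perfectField K
  have : IsAlgClosure k K := ⟨inferInstance, inferInstance⟩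
  obtain ⟨T, ⟨e⟩, a, i⟩ := t1 k K _ _ G _ φ (stab_SD k) f
  exact PSimple.congr e (P011LS.hd k K T (a an) ⟨σ, fun h => hσ (i _ _ h)⟩)

theorem ps_E (an : Ani (Pts k G k)) (φ : G ≃* SE K) [NumberField k] (f : Form k φ) :
    PSimple (Pts k G k) := by
  have : Infinite k := .of_injective _ Nat.cast_injective
  have : CharZero K := charZero_of_injective_algebraMap (algebraMap k K).injective
  have := IsSepClosure.sep_closed k (K := K)
  have : IsAlgClosed K := IsSepClosed.isAlgClosed_of_perfectField K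
  have : IsAlgClosure k K := ⟨inferInstance, inferInstance⟩
  obtain ⟨T, ⟨e⟩, a, -⟩ := t1 k K _ _ G _ φ (stab_SE k) f
  exact PSimple.congr e (P011LS.he_fin P011LO.iso2' P011LW.pair'
    (P011LF.nfb P011LL.land P011LZ.apx P011LZ.reps) k K T (a an))

/-- The groups which are not of type `A` are projectively simple. -/
theorem ps_notA (hk : Glob k) {D : Chev} (hD : SC D) (φ : G ≃* D.grp K) (h : Form k φ)
    (hA : ¬TyA D.R) : PSimple (Pts k G k) := by
  have := Glob.inf hk
  have ox := opx P011UHB.hb P011UY.cq P011UG.opg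
  have ps := ps_of2 ox P011UQ2.eqt P011UC.eqa
    (dopp0 (P011UGB4.bb2_gd (P011UGB6.gd P011UE.nst)))
  obtain ⟨T, ⟨f⟩, a, i⟩ := P011UH.t1i k K _ _ G _ φ (stab k) h
  by_cases ht : Tri T
  · obtain ⟨e, he⟩ : ∃ e, Ty D.R (CartanMatrix.D 4) e := by
      obtain ⟨σ, g, c, π, h1, h2⟩ := ht
      exact dg2 D.R (Chev.R_ok D) π h1.1 h2
    by_cases an : T.Ani
    · by_cases nf : NumberField k
      · have : CharZero K := charZero_of_injective_algebraMap (algebraMap k K).injective
        have := IsSepClosure.sep_closed k (K := K)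
        have : IsAlgClosed K := IsSepClosed.isAlgClosed_of_perfectField K
        obtain ⟨ψ, h1, h2, h3⟩ :=
          P011UR.isd_of P011UH.cl P011UI.recH P011UB.aut D hD e he K
        obtain ⟨σ, hσ⟩ := P011UQ2.trn k K D hD T ht
        refine ps_D (a.2 an) _ (form_trans h h1 h2) (σ := σ) fun ⟨s, hs, h4⟩ => hσ ?_
        refine (i _ _).2 ⟨(ψ.symm ⟨s, hs⟩).1, (ψ.symm ⟨s, hs⟩).2, fun g g' e' => ?_⟩
        have h5 := h4 g g' e'
        rw [MulEquiv.trans_apply, MulEquiv.trans_apply] at h5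
        have h6 : ψ (φ g') * ⟨s, hs⟩ = ⟨s, hs⟩ * ψ (fm D ((σ * σ : K ≃ₐ[k] K) : K →+* K) (φ g)) :=
          Subtype.ext (Units.ext (h5.trans (congrArg (s.1 * ·)
            (h3 ((σ * σ : K ≃ₐ[k] K) : K →+* K) (φ g)).symm)))
        have h7 := congrArg ψ.symm h6
        rw [map_mul, map_mul, ψ.symm_apply_apply, ψ.symm_apply_apply] at h7
        exact congrArg (fun x : D.grp K => x.1.1) h7
      · obtain ⟨T', ε, π, c, e', ho⟩ := ox k K D hk hD T hA
          (.inl (ex2 _ (.inr (.inr (.inl ⟨4, e, le_rfl, by decide, he⟩)))))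
        exact absurd (P011UC.eqa k K D hD T T' e' an)
          (P011UY.opi k K D hk hD T' nf hA ε π c ho)
    · exact PSimple.congr f (P011UY.f1 ia0 P011UF3.emb P011UF4.val k K D hk hD T e he ht an)
  have dev : DEV := fun k K _ _ _ _ D hk hD T n e he hn h2 ht =>
    ps k K D hk hD T (fun hA => (nta _ hA).1 n e hn he)
      (.inl (ex2 _ (.inr (.inr (.inl ⟨n, e, hn, h2, he⟩))))) ht fun _ _ ⟨_, h⟩ =>
        P011UD.not_x2 (h.ex2.1 (ex2 _ (.inr (.inr (.inl ⟨n, e, hn, h2, he⟩)))))
  by_cases h6 : T.Ani ∧ NumberField k ∧ ∃ e, Ty D.R CartanMatrix.E₆ e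
  · obtain ⟨an, nf, e, he⟩ := h6
    have : CharZero K := charZero_of_injective_algebraMap (algebraMap k K).injective
    have := IsSepClosure.sep_closed k (K := K)
    have : IsAlgClosed K := IsSepClosed.isAlgClosed_of_perfectField K
    obtain ⟨ψ, h1, h2⟩ := P011UR.ise_of P011UH.cl P011UI.recH P011UB.aut D hD e he K
    exact ps_E (a.2 an) _ (form_trans h h1 h2)
  replace ps := fun h => ps k K D hk hD T hA h ht fun h1 h2 h3 => h6 ⟨h1, h2, h3⟩
  refine PSimple.congr f ?_
  have x2 : _ → PSimple T.fix := fun h => ps (.inl (ex2 _ h))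
  rcases cls D.R (Chev.R_ok D) with h' | h' | h' | ⟨n, e, hn, he⟩ | ⟨e, he⟩ | h' | h' | h' | h'
  · exact absurd h' hA
  · exact x2 (.inl h')
  · exact x2 (.inr (.inl h'))
  · rcases Nat.even_or_odd n with h2 | ⟨j, rfl⟩
    · exact x2 (.inr (.inr (.inl ⟨n, e, hn, h2, he⟩)))
    · by_cases h3 : Tit T (e.symm 0)
      · exact ps (.inr (.inl ⟨2 * j, e, he, by omega, h3⟩))
      · exact P011UY.dO dev k K D hk hD T (2 * j) e he (by omega) (even_two_mul j) h3
  · by_cases h3 : Lift T
    · exact ps (.inr (.inr h3))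
    by_cases an : T.Ani
    · exact absurd an (P011UHB.e6i k K D hk hD T (fun nf => h6 ⟨an, nf, e, he⟩) ⟨e, he⟩)
    · exact f20 (psh ia0 P011UF2a.idx) k K D hk hD T e he h3 an
  · exact x2 (.inr (.inr (.inr (.inl h'))))
  · exact x2 (.inr (.inr (.inr (.inr (.inl h')))))
  · exact x2 (.inr (.inr (.inr (.inr (.inr (.inl h'))))))
  · exact x2 (.inr (.inr (.inr (.inr (.inr (.inr h'))))))

/-- The group of the rational points is projectively simple, or the group is an anisotropic form
of the special linear group. -/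
theorem split (hk : Glob k) {D : Chev} (hD : SC D) (φ : G ≃* D.grp K) (h : Form k φ) :
    PSimple (Pts k G k) ∨
      Ani (Pts k G k) ∧ ∃ (n : ℕ) (ψ : G ≃* SA K n), 2 ≤ n ∧ Form k ψ := by
  have := Glob.inf hk
  by_cases hA : TyA D.R
  swap
  · exact .inl (ps_notA hk hD φ h hA)
  obtain ⟨n, e, he⟩ := hA
  obtain ⟨ψ, h1, h2, -⟩ := P011UI.isa D hD n e he K
  have h0 : 0 < n := by
    have := Fintype.card_congr e
    rw [Fintype.card_fin, Fintype.card_fin] at this
    exact this ▸ (Chev.R_ok D).pos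
  by_cases an : Ani (Pts k G k)
  · exact .inr ⟨an, n + 1, _, by omega, form_trans h h1 h2⟩
  · obtain ⟨T, ⟨e⟩, a, -⟩ := P011UH.t1i k K _ _ G _ _ (stab_SA k (n + 1)) (form_trans h h1 h2)
    exact .inl (PSimple.congr e (ia0 k K (n + 1) hk (by omega) T fun h => an (a.2 h)))

/-- The rational points of a form are Zariski dense. -/
theorem den_form [Infinite k] {D : Chev} (hD : SC D) (φ : G ≃* D.grp K) (h : Form k φ)
    (p : MvPolynomial (Fin m × Fin m) k)
    (hp : ∀ g ∈ Pts k G k, MvPolynomial.eval (fun e => g.1 e.1 e.2) p = 0) : Van k G p := by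
  choose q hq using h.2.2
  have e : ∀ g : D.grp K, MvPolynomial.eval (fun e => g.1.1 e.1 e.2)
      (MvPolynomial.aeval (fun e => q e.1 e.2) p) =
      MvPolynomial.aeval (fun e => (φ.symm g).1.1 e.1 e.2) p := fun g =>
    (DFunLike.congr_fun (MvPolynomial.comp_aeval (fun e : Fin m × Fin m => q e.1 e.2)
      ((MvPolynomial.aeval fun e : Fin D.n × Fin D.n => g.1.1 e.1 e.2).restrictScalars k)) p).trans
      (congrArg (fun x => MvPolynomial.aeval x p) (funext fun e => (hq e.1 e.2 g).symm))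
  intro g hg
  have := P011UC.den0 k K D hD (tw (stab k) h) (MvPolynomial.aeval (fun e => q e.1 e.2) p)
    (fun x hx => by
      obtain ⟨g', e'⟩ := exists_down (k := k) (g := (φ.symm x).1) fun σ =>
        congrArg (fun x : G => x.1.1) (φ.injective ((hx σ).trans (φ.apply_symm_apply x).symm))
      rw [e, ← e']
      have := congrArg (algebraMap k K) (hp g' ((mem_Pts_sub h.1 (Algebra.ofId k K)).2
        (e'.symm ▸ (φ.symm x).2 :)))
      rw [map_zero, MvPolynomial.map_eval, MvPolynomial.eval_map] at this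
      exact this) (φ ⟨g, hg⟩)
  rwa [e, φ.symm_apply_apply] at this

end split

section

open Vale.Agent.P092AG Vale.Agent.P092TO Vale.Agent.P092A2 Vale.Agent.P011I
open Vale.Agent.P011.H738 (Place)

variable {k Ω : Type} [Field k] [Field Ω] [Algebra k Ω] [IsAlgClosure k Ω] {n : ℕ}
  {G : Subgroup (GL (Fin n) Ω)}

/-- The group is a form of a simply connected Chevalley group. -/
theorem ex_form (hk : Glob k) (h : AbsSimple k G) (hS : SConn G) :
    ∃ (D : Chev) (φ : pts (separableClosure k Ω) G ≃* D.grp (separableClosure k Ω)),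
      SC D ∧ Form k φ ∧ ∀ p, Van k (pts (separableClosure k Ω) G) p ↔ Van k G p := by
  have := IsAlgClosure.isAlgClosed k (K := Ω)
  have := Glob.inf hk
  obtain ⟨L, _, _, D, l1, hD, hC⟩ := P011IZ.ex_c0 P011IE.exc_row P011IH.hom_row
    (P011IP.pi P011IP.adm) P011IL.loc P011IN.nrm P011IN.ext P011IT.upf P011IM.maxs P011IR.yne
    P011IS.rk1 hk h
  have := IsSepClosure.sep_closed k (K := separableClosure k Ω)
  have : Infinite (separableClosure k Ω) := .of_injective _ (algebraMap k _).injective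
  obtain ⟨ψ, P, p1, p2⟩ := P011IFA.fa P011IT.img P011IP.adm k (separableClosure k Ω) Ω n G h D hD
    (P011IP.spec P011IP.adm k (separableClosure k Ω) Ω L l1 n G h D hD hC)
  obtain ⟨φ, f1, f2⟩ := hS _ _ ψ _ p2
  obtain ⟨⟨φ', f3⟩, f4⟩ := P011IS.fb k (separableClosure k Ω) Ω n G h D hD φ P
    (fun g => f1 g ▸ p1 g) f2
  exact ⟨D, φ', hD, f3, f4⟩

/-- The rational points are Zariski dense. -/
theorem zd (hk : Glob k) (h : AbsSimple k G) (hS : SConn G) :
    Zd ((io k Ω n).comp (Pts k G k).subtype) k G := by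
  have := Glob.inf hk
  have := IsAlgClosure.isAlgClosed k (K := Ω)
  obtain ⟨D, φ, hD, f3, f4⟩ := ex_form hk h hS
  refine ⟨h, io_inj.comp Subtype.val_injective,
    fun g => (mem_Pts_sub (P011IT.Pts_self h) (Algebra.ofId k Ω)).1 g.2, fun g hg p hp => ?_⟩
  rw [← Subgroup.map_map, ← MonoidHom.range_eq_map, Subgroup.range_subtype, Subgroup.coe_map,
    P011IT.van_io] at hp
  refine (Ideal.map_le_iff_le_comap (K := RingHom.ker (ev (g : Mt n Ω)))).2 (fun q hq => ?_) hp
  refine P011IT.Van_iff.1 ((f4 q).1 (den_form hD φ f3 q fun x hx => hq x ?_)) g hg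
  simpa only [Pts, f4, SetLike.mem_coe] using hx

omit [IsAlgClosure k Ω] in
/-- The points over an extension. -/
theorem pts_eq (h : AbsSimple k G) (L Ω' : Type) [Field L] [Algebra k L] [Field Ω'] [Algebra k Ω']
    [Algebra L Ω'] [IsScalarTower k L Ω'] [Algebra Ω Ω'] [IsScalarTower k Ω Ω'] :
    Zs k G L = pts L (P011IT.bc Ω' h) ∧ Pts k G L = pts L (P011IT.bc Ω' h) := by
  have e : Zs k G L = pts L (P011IT.bc Ω' h) := Set.ext fun g =>
    (map_Zs (IsScalarTower.toAlgHom k L Ω')).symm.trans (by rw [P011IT.Zs_bc h]; rfl)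
  exact ⟨e, (congrArg Subgroup.closure e).trans (Subgroup.closure_eq _)⟩

theorem mem_Pts (h : AbsSimple k G) (L : Type) [Field L] [Algebra k L] (g : GL (Fin n) L) :
    g ∈ Pts k G L ↔ g ∈ Zs k G L := by
  let f : Ω →ₐ[k] AlgebraicClosure L := IsAlgClosed.lift
  let _ : Algebra Ω (AlgebraicClosure L) := (f : Ω →+* _).toAlgebra
  have : IsScalarTower k Ω (AlgebraicClosure L) :=
    .of_algebraMap_eq fun x => (f.commutes x).symm
  obtain ⟨a, b⟩ := pts_eq h L (AlgebraicClosure L)
  rw [a, b]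
  rfl

/-- **The points over a local field of an anisotropic group are a compact group.** -/
theorem compact_of_ani (h : AbsSimple k G) (F : Type) [NontriviallyNormedField F] [ProperSpace F]
    [IsUltrametricDist F] [Algebra k F] (an : Ani (Pts k G F)) : CompactSpace (Pts k G F) := by
  have := IsAlgClosure.isAlgClosed k (K := Ω)
  obtain ⟨Ω', _, _, _, _, _⟩ := P011IN.nrm F
  let _ : Algebra k Ω' := ((algebraMap F Ω').comp (algebraMap k F)).toAlgebra
  have : IsScalarTower k F Ω' := .of_algebraMap_eq fun _ => rfl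
  let f : Ω →ₐ[k] Ω' := IsAlgClosed.lift
  let _ : Algebra Ω Ω' := (f : Ω →+* Ω').toAlgebra
  have : IsScalarTower k Ω Ω' := .of_algebraMap_eq fun x => (f.commutes x).symm
  have h' : AbsSimple F (P011IT.bc Ω' h) := P011IT.abs_base (P011IT.abs_bc h)
  rw [(pts_eq h F Ω').2] at an ⊢
  refine isCompact_iff_compactSpace.1 (by_contra fun hc => ?_)
  obtain ⟨c, _, -, -, -, hY⟩ := b1 Ω' (P092A1.nice_pts h') (P092A1.simp_pts' h') hc
  refine hY (eq_bot_iff.2 fun y hy => an c⁻¹ y fun t => ⟨_, mem_cj.1 (hy t), ?_⟩)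
  rw [← Units.val_mul, mul_inv_cancel_right]
  rfl

theorem proper_pl (hk : Glob k) (w : Place k) : ProperSpace w.comp := by
  rcases hk with hk | ⟨E, _, _, _, _⟩
  · exact (P011NC.gfNF k).proper (.inl w)
  · have := P011.H271.GFF.mk' E k
    infer_instance

theorem compact_pl (hk : Glob k) (h : AbsSimple k G) (w : Place k) (an : Ani (Pts k G w.comp)) :
    CompactSpace (Pts k G w.comp) :=
  haveI := proper_pl hk w
  letI := P011.H271.nnfPlace w
  compact_of_ani h w.comp an

end

end Vale.Agent.N011
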