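import Vale.Agent.N011.Red

/-!
Convergence at a place in a finite-dimensional algebra, and the properties of the models of the
anisotropic groups of type `A`.
-/

namespace Vale.Agent.N011

open Matrix Module Filter TensorProduct Topology Vale.Agent.P011L Vale.Agent.P011UY
open Vale.Agent.P011.H738 (Place)

attribute [local instance] tp

variable {k : Type} [Field k] {A : Type} [Ring A] [Algebra k A]

local instance (L : Type) [NormedField L] [Algebra k L] : IsModuleTopology L (L ⊗[k] A) := ⟨rfl⟩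

/-- The sequence converges at the place. -/
def Td (w : Place k) (f : ℕ → A) (x : A) : Prop :=
  Tendsto (fun j => (1 : w.comp) ⊗ₜ[k] f j) atTop (𝓝 (1 ⊗ₜ x))

variable {w : Place k} {f g : ℕ → A} {x y : A}

theorem Td.const : Td w (fun _ => x) x := tendsto_const_nhds

theorem Td.lin {t : ℕ → k} {t0 : k}
    (h : Tendsto (fun j => algebraMap k w.comp (t j)) atTop (𝓝 (algebraMap k w.comp t0))) :
    Td w (fun j => x + t j • y) (x + t0 • y) := by
  have := IsModuleTopology.toContinuousAdd w.comp (w.comp ⊗[k] A)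
  have e : ∀ s : k, (1 : w.comp) ⊗ₜ[k] (x + s • y) =
      1 ⊗ₜ x + algebraMap k w.comp s • (1 : w.comp) ⊗ₜ[k] y := fun s => by
    rw [tmul_add, tmul_smul, algebraMap_smul]
  simp only [Td, e]
  exact tendsto_const_nhds.add (h.smul tendsto_const_nhds)

variable [FiniteDimensional k A]

theorem t2 (L : Type) [NormedField L] [Algebra k L] : T2Space (L ⊗[k] A) :=
  (⟨ind_bs, (bs L A).equivFun.injective⟩ : IsEmbedding _).t2Space

theorem Td.mul (h : Td w f x) (h' : Td w g y) : Td w (fun j => f j * g j) (x * y) := by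
  have := IsModuleTopology.isTopologicalRing w.comp (w.comp ⊗[k] A)
  simpa only [Td, Algebra.TensorProduct.tmul_mul_tmul, one_mul] using Tendsto.mul h h'

theorem Td.inv {f : ℕ → Aˣ} {x : Aˣ} (h : Td w (fun j => (f j).1) x.1) :
    Td w (fun j => (f j)⁻¹.1) x⁻¹.1 := by
  let M := Algebra.leftMulMatrix (bs (k := k) w.comp A)
  have m : Continuous M := IsModuleTopology.continuous_of_linearMap M.toLinearMap
  have e : ∀ u : Aˣ, M (1 ⊗ₜ u⁻¹.1) * M (1 ⊗ₜ u.1) = 1 := fun u => by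
    rw [← map_mul, Algebra.TensorProduct.tmul_mul_tmul, one_mul, Units.inv_mul,
      ← Algebra.TensorProduct.one_def, map_one]
  have e' : ∀ u : Aˣ, (bs w.comp A).equivFun (1 ⊗ₜ u⁻¹.1) = ((M (1 ⊗ₜ u.1)).det⁻¹ •
      (M (1 ⊗ₜ u.1)).adjugate) *ᵥ ⇑((bs (k := k) w.comp A).repr 1) := fun u => by
    rw [← Ring.inverse_eq_inv, ← Matrix.inv_def, Matrix.inv_eq_left_inv (e u),
      Algebra.leftMulMatrix_mulVec_repr, mul_one]
    rfl
  have h1 := (m.tendsto _).comp h
  have h2 := (continuous_id.matrix_det.tendsto _).comp h1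
  have h3 := (continuous_id.matrix_adjugate.tendsto _).comp h1
  have h4 := (h2.inv₀ (right_ne_zero_of_mul (by
    rw [id, ← Matrix.det_mul, e, Matrix.det_one]; exact one_ne_zero))).smul h3
  refine ind_bs.tendsto_nhds_iff.2 ?_
  simp only [Function.comp_def, e']
  exact ((continuous_id.matrix_mulVec continuous_const).tendsto _).comp h4

theorem Td.of (h : ∀ ε : ℝ, 0 < ε → ∀ᶠ j in atTop, ∀ i,
    ‖algebraMap k w.comp ((finBasis k A).repr (f j - 1) i)‖ < ε) : Td w f 1 :=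
  td_bs.2 fun i => Metric.tendsto_nhds.2 fun ε e => (h ε e).mono fun j l => by
    rw [dist_eq_norm, repr_tm, repr_tm, ← map_sub, ← Finsupp.sub_apply, ← map_sub]
    exact l i

theorem Td.sol {Γ : Type} [Group Γ] {ι : Γ →* A} (h : ∀ ε : ℝ, 0 < ε → ∃ m : ℕ,
    ∀ g ∈ derivedSeries Γ m, ∀ i, ‖algebraMap k w.comp ((finBasis k A).repr (ι g - 1) i)‖ < ε)
    (g : ℕ → Γ) (hg : ∀ j, g j ∈ derivedSeries Γ j) : Td w (fun j => ι (g j)) 1 :=
  Td.of fun ε e => (h ε e).elim fun m a => (eventually_ge_atTop m).mono fun j l =>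
    a _ (derivedSeries_antitone Γ l (hg j))

/-- The map from `k` to the algebra is continuous at every place. -/
def Cn (k : Type) [Field k] {A : Type} [Ring A] [Algebra k A] (c : k → A) : Prop :=
  ∀ (w : Place k) (t0 : k) (t : ℕ → k),
    Tendsto (fun j => algebraMap k w.comp (t j)) atTop (𝓝 (algebraMap k w.comp t0)) →
      Td w (fun j => c (t j)) (c t0)

/-- A curve of commutators. -/
theorem curve {Γ : Type} [Group Γ] {ι : Γ →* A} (hι : Function.Injective ι) {y : Γ} {u : k → Aˣ}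
    (hu : Cn k fun t => (u t).1) (h : ∀ t, ∃ g, ι g = (u t).1 * ι y * (u t)⁻¹.1 * ι y⁻¹)
    (h0 : (u 0).1 * ι y = ι y * (u 0).1) (h1 : (u 1).1 * ι y ≠ ι y * (u 1).1) :
    ∃ c : k → Γ, c 0 = 1 ∧ c 1 ≠ 1 ∧ Cn k fun t => ι (c t) := by
  choose c hc using h
  refine ⟨c, hι ?_, fun e => h1 ?_, fun w t0 t l => ?_⟩
  · rw [hc, h0, Units.mul_inv_cancel_right, ← map_mul, mul_inv_cancel]
  · have := congrArg (· * (ι y * (u 1).1)) (hc 1)
    simp only [e, map_one, one_mul] at this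
    rw [this, mul_assoc _ (ι y⁻¹), ← mul_assoc (ι y⁻¹), ← map_mul, inv_mul_cancel, map_one, one_mul,
      Units.inv_mul_cancel_right]
  · simp only [hc]
    exact (((hu w t0 t l).mul Td.const).mul (Td.inv (hu w t0 t l))).mul Td.const

theorem near_div {K A F : Type} [Field K] [Ring A] [Algebra K A] [FiniteDimensional K A]
    [Nontrivial A] [NontriviallyNormedField F] [ProperSpace F] [IsUltrametricDist F]
    [i : Algebra K F] (hd : ∀ x : F ⊗[K] A, x ≠ 0 → IsUnit x) {Γ : Type} [Group Γ] (ι : Γ →* A)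
    {ε : ℝ} (hε : 0 < ε) : ∃ m : ℕ, ∀ g ∈ derivedSeries Γ m, ∀ j,
      ‖algebraMap K F ((finBasis K A).repr (ι g - 1) j)‖ < ε := by
  obtain ⟨φ, rfl⟩ : ∃ φ : K →+* F, φ.toAlgebra = i := ⟨_, toAlgebra_algebraMap⟩
  obtain ⟨D, _, _, _, ρ, h⟩ := P011.H738.exists_local φ hd
  obtain ⟨C, hC, h1⟩ := h _ (finBasis K A)
  obtain ⟨m, hm⟩ := P011.H738.exists_derived_near ((ρ : A →* D).comp ι).toHomUnits
    (div_pos hε hC)
  refine ⟨m, fun g hg j => (h1 _ j).trans_lt ?_⟩
  rw [map_sub, map_one, mul_comm]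
  exact (lt_div_iff₀ hC).1 (hm g hg).2

/-- The properties of a model. -/
structure Mdl {m : ℕ} (P : ∀ (L : Type) [Field L] [Algebra k L], Subgroup (GL (Fin m) L))
    (B : Set (Place k)) (ι : P k →* A) (l : ∀ w : Place k, P w.comp →* w.comp ⊗[k] A) : Prop where
  fin : B.Finite
  ani : ∀ w ∈ B, Ani (P w.comp)
  cont : ∀ w, Continuous (l w)
  inj : ∀ w, Function.Injective (l w)
  map : ∀ w (g : P k) (g' : P w.comp), g'.1.1 = g.1.1.map (algebraMap k w.comp) →
    l w g' = 1 ⊗ₜ ι g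
  opn : ∀ N : Subgroup (P k), N.Normal → ¬N ≤ Subgroup.center _ → ∀ g : ℕ → P k,
    (∀ w ∈ B, Td w (fun j => ι (g j)) 1) → ∀ᶠ j in atTop, g j ∈ N
  den : ∀ x : ∀ w : B, P w.1.comp, (fun w : B => l w (x w)) ∈
    closure (Set.range fun (g : P k) (w : B) => (1 : w.1.comp) ⊗ₜ[k] ι g)
  sol : ∀ w ∈ B, ∀ g : ℕ → P k, (∀ j, g j ∈ derivedSeries (P k) j) → Td w (fun j => ι (g j)) 1
  crv : ∀ y ∉ Subgroup.center (P k), ∃ c : k → P k, c 0 = 1 ∧ c 1 ≠ 1 ∧ Cn k fun t => ι (c t)

/-- The group is projectively simple or has a model. -/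
def Good (k : Type) [Field k] {m : ℕ}
    (P : ∀ (L : Type) [Field L] [Algebra k L], Subgroup (GL (Fin m) L)) : Prop :=
  PSimple (P k) ∨ ∃ (A : Type) (_ : Ring A) (_ : Algebra k A) (_ : FiniteDimensional k A)
    (B : Set (Place k)) (ι : P k →* A) (l : ∀ w : Place k, P w.comp →* w.comp ⊗[k] A),
    Mdl P B ι l

end Vale.Agent.N011
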